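import Vale.Agent.P022.H20.GalDef
import Vale.Agent.P022.H20.Quad
import Vale.Agent.P022.H724.Bas

/-! # P022: the primes dividing the discriminant of `K` are ramified in every representation
induced from `G_K` (helper916) -/

open NumberField Matrix
open scoped Pointwise

noncomputable section

namespace Vale.Agent.P022.H916

instance isAlg_Qb : Algebra.IsAlgebraic ℚ Qb := AlgebraicClosure.isAlgebraic ℚ

instance isAlgClosure_Qb : IsAlgClosure ℚ Qb := ⟨inferInstance, inferInstance⟩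

instance isGalois_Qb : IsGalois ℚ Qb := IsAlgClosure.isGalois ℚ Qb

/-- the image of `K` in `ℚ̄` -/
def fld {K : Type*} [Field K] (j : K →+* Qb) [CharZero K] : IntermediateField ℚ Qb :=
  (RingHom.equivRatAlgHom K Qb j).fieldRange

section

variable {K : Type*} [Field K] [NumberField K] (j : K →+* Qb)

lemma mem_fld (x : Qb) : x ∈ fld j ↔ ∃ y : K, j y = x := Iff.rfl

lemma GK_eq : GK j = (fld j).fixingSubgroup := by
  ext g
  rw [IntermediateField.mem_fixingSubgroup_iff]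
  constructor
  · rintro h x ⟨y, rfl⟩
    exact h y
  · intro h y
    exact h (j y) ⟨y, rfl⟩

instance fin_fld : FiniteDimensional ℚ (fld j) :=
  inferInstanceAs (FiniteDimensional ℚ (RingHom.equivRatAlgHom K Qb j).toLinearMap.range)

lemma isOpen_GK : IsOpen (GK j : Set GQ) := by
  rw [GK_eq]
  exact IntermediateField.fixingSubgroup_isOpen (fld j)

lemma isClosed_GK : IsClosed (GK j : Set GQ) := by
  rw [GK_eq]
  exact IntermediateField.fixingSubgroup_isClosed (fld j)

instance compact_GK : CompactSpace (GK j) := isCompact_iff_compactSpace.1 (isClosed_GK j).isCompact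

/-- an element of `ℚ̄` fixed by `G_K` is in `K` -/
lemma fixed {x : Qb} (h : ∀ g : GK j, (g : GQ) x = x) : ∃ y : K, j y = x := by
  have h1 : x ∈ IntermediateField.fixedField (fld j).fixingSubgroup := by
    rw [IntermediateField.mem_fixedField_iff]
    intro g hg
    rw [← GK_eq] at hg
    exact h ⟨g, hg⟩
  rw [InfiniteGalois.fixedField_fixingSubgroup] at h1
  exact h1

/-- an algebraic integer fixed by `G_K` is in `𝓞 K` -/
lemma fixed_int {x : 𝓞 Qb} (h : ∀ g : GK j, (g : GQ) • x = x) :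
    ∃ y : 𝓞 K, RingOfIntegers.mapRingHom j y = x := by
  obtain ⟨y, hy⟩ := fixed j (x := (x : Qb)) (fun g => by
    have := congrArg (fun z : 𝓞 Qb => (z : Qb)) (h g)
    exact this)
  have hint : IsIntegral ℤ y := by
    have h1 : IsIntegral ℤ (j y) := by rw [hy]; exact x.2
    exact (isIntegral_algHom_iff (j.toIntAlgHom) j.injective).1 h1
  refine ⟨⟨y, hint⟩, ?_⟩
  apply RingOfIntegers.ext
  exact hy

/-- `𝓞 ℚ̄` as an algebra over `𝓞 K` -/
@[instance_reducible]
def algj : Algebra (𝓞 K) (𝓞 Qb) := (RingOfIntegers.mapRingHom j).toAlgebra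

lemma inv_j : letI := algj j; Algebra.IsInvariant (𝓞 K) (𝓞 Qb) (GK j) := by
  let _ := algj j
  refine ⟨fun b hb => ?_⟩
  exact fixed_int j hb

omit [NumberField K] in
lemma comm_j : letI := algj j; SMulCommClass (GK j) (𝓞 K) (𝓞 Qb) := by
  let _ := algj j
  refine ⟨fun g a b => ?_⟩
  rw [Algebra.smul_def, Algebra.smul_def, smul_mul']
  congr 1
  apply RingOfIntegers.ext
  exact g.2 a

omit [NumberField K] in
lemma cont_j : letI : TopologicalSpace (𝓞 Qb) := ⊥; ContinuousSMul (GK j) (𝓞 Qb) := by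
  let _ : TopologicalSpace (𝓞 Qb) := ⊥
  have : DiscreteTopology (𝓞 Qb) := ⟨rfl⟩
  rw [continuousSMul_iff_stabilizer_isOpen]
  intro x
  have h1 : IsOpen ((MulAction.stabilizer GQ (x : Qb) : Subgroup GQ) : Set GQ) :=
    stabilizer_isOpen_of_isIntegral (x : Qb)
  have h2 : ((MulAction.stabilizer (GK j) x : Subgroup (GK j)) : Set (GK j)) =
      Subtype.val ⁻¹' ((MulAction.stabilizer GQ (x : Qb) : Subgroup GQ) : Set GQ) := by
    ext g
    rw [Set.mem_preimage, SetLike.mem_coe, SetLike.mem_coe, MulAction.mem_stabilizer_iff,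
      MulAction.mem_stabilizer_iff]
    constructor
    · intro h
      exact congrArg (fun z : 𝓞 Qb => (z : Qb)) h
    · intro h
      apply RingOfIntegers.ext
      exact h
  rw [h2]
  exact h1.preimage continuous_subtype_val

/-- `G_K` permutes transitively the primes of `𝓞 ℚ̄` above a prime of `𝓞 K` -/
lemma exists_smul {P Q : Ideal (𝓞 Qb)} (hP : P.IsPrime) (hQ : Q.IsPrime)
    (h : below j P = below j Q) : ∃ g : GK j, Q = (g : GQ) • P := by
  let _ := algj j
  have := inv_j j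
  have := comm_j j
  let _ : TopologicalSpace (𝓞 Qb) := ⊥
  have : DiscreteTopology (𝓞 Qb) := ⟨rfl⟩
  have := cont_j j
  obtain ⟨g, hg⟩ := Algebra.IsInvariant.exists_smul_of_under_eq_of_profinite (A := 𝓞 K)
    (G := GK j) P Q h
  exact ⟨g, hg⟩

/-- every automorphism of `𝓞 ℚ̄ / Q` which is trivial on `𝓞 K` comes from `G_K` -/
lemma exists_lift {Q : Ideal (𝓞 Qb)} (hQ : Q.IsPrime) {σ : GQ} (hσ : σ • Q = Q)
    (h : ∀ x : 𝓞 K, σ • RingOfIntegers.mapRingHom j x - RingOfIntegers.mapRingHom j x ∈ Q) :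
    ∃ g : GK j, ∀ x : 𝓞 Qb, (g : GQ) • x - σ • x ∈ Q := by
  let _ := algj j
  have := inv_j j
  have := comm_j j
  let _ : TopologicalSpace (𝓞 Qb) := ⊥
  have : DiscreteTopology (𝓞 Qb) := ⟨rfl⟩
  have := cont_j j
  have hl : Q.LiesOver (below j Q) := ⟨rfl⟩
  have hm : Q = Q.map (MulSemiringAction.toRingEquiv GQ (𝓞 Qb) σ : 𝓞 Qb →+* 𝓞 Qb) := hσ.symm
  let e : (𝓞 Qb ⧸ Q) ≃ₐ[𝓞 K ⧸ below j Q] (𝓞 Qb ⧸ Q) :=
    AlgEquiv.ofRingEquiv (f := Ideal.quotientEquiv Q Q (MulSemiringAction.toRingEquiv GQ (𝓞 Qb) σ)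
      hm) (by
      intro r
      obtain ⟨x, rfl⟩ := Ideal.Quotient.mk_surjective r
      exact Ideal.Quotient.eq.2 (h x))
  obtain ⟨g, hg⟩ := Ideal.Quotient.stabilizerHom_surjective_of_profinite (G := GK j)
    (below j Q) Q e
  refine ⟨g.1, fun x => ?_⟩
  have h1 := DFunLike.congr_fun hg (Ideal.Quotient.mk Q x)
  rw [← Ideal.Quotient.eq]
  exact h1

/-- for `K` quadratic the two embeddings are congruent modulo the primes dividing the
discriminant -/
lemma cong (h2 : Module.finrank ℚ K = 2) {f g : K →+* Qb} (hfg : f ≠ g) {P : Ideal (𝓞 Qb)}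
    (hP : P.IsPrime) (hd : ((discr K : ℤ) : 𝓞 Qb) ∈ P) (x : 𝓞 K) :
    RingOfIntegers.mapRingHom f x - RingOfIntegers.mapRingHom g x ∈ P := by
  obtain ⟨B⟩ := H724.exists_qb h2
  set F : 𝓞 K →+* 𝓞 Qb := RingOfIntegers.mapRingHom f with hF
  set G : 𝓞 K →+* 𝓞 Qb := RingOfIntegers.mapRingHom g with hG
  have hne : F B.ω ≠ G B.ω := by
    intro he
    apply hfg
    apply IsLocalization.ringHom_ext (nonZeroDivisors (𝓞 K))
    ext y
    obtain ⟨a, b, hab⟩ := B.gen y
    have : F y = G y := by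
      rw [hab, map_add, map_add, map_mul, map_mul, he]
      simp
    exact congrArg (fun z : 𝓞 Qb => (z : Qb)) this
  have hf : F B.ω * F B.ω = (B.p : 𝓞 Qb) + (B.q : 𝓞 Qb) * F B.ω := by
    rw [← map_mul, B.rel]; simp
  have hg : G B.ω * G B.ω = (B.p : 𝓞 Qb) + (B.q : 𝓞 Qb) * G B.ω := by
    rw [← map_mul, B.rel]; simp
  have hs : F B.ω + G B.ω = (B.q : 𝓞 Qb) := by
    have h1 : (F B.ω - G B.ω) * (F B.ω + G B.ω - B.q) = 0 := by linear_combination hf - hg
    rcases mul_eq_zero.1 h1 with h | h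
    · exact absurd (sub_eq_zero.1 h) hne
    · exact sub_eq_zero.1 h
  have hsq : (F B.ω - G B.ω) ^ 2 = ((discr K : ℤ) : 𝓞 Qb) := by
    rw [B.discr_eq]
    push_cast
    linear_combination 2 * hf + 2 * hg - (F B.ω + G B.ω - B.q) * hs
  have hmem : F B.ω - G B.ω ∈ P := hP.mem_of_pow_mem 2 (by rw [hsq]; exact hd)
  obtain ⟨a, b, hab⟩ := B.gen x
  have h3 : F x - G x = (b : 𝓞 Qb) * (F B.ω - G B.ω) := by
    rw [hab, map_add, map_add, map_mul, map_mul]
    simp
    ring
  rw [h3]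
  exact P.mul_mem_left _ hmem

/-- the embedding `σ ∘ j` -/
def tw (σ : GQ) (j : K →+* Qb) : K →+* Qb := (σ : Qb →+* Qb).comp j

omit [NumberField K] in
lemma tw_ne {σ : GQ} (h : σ ∉ GK j) : tw σ j ≠ j := by
  intro he
  exact h fun x => DFunLike.congr_fun he x

omit [NumberField K] in
lemma mem_of_tw {σ : GQ} (h : tw σ j = j) : σ ∈ GK j := fun x => DFunLike.congr_fun h x

lemma cong' (h2 : Module.finrank ℚ K = 2) {P : Ideal (𝓞 Qb)}
    (hP : P.IsPrime) (hd : ((discr K : ℤ) : 𝓞 Qb) ∈ P) {σ : GQ} (hσ : σ ∉ GK j) (x : 𝓞 K) :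
    σ • RingOfIntegers.mapRingHom j x - RingOfIntegers.mapRingHom j x ∈ P :=
  cong h2 (tw_ne j hσ) hP hd x

/-- two elements outside `G_K` differ by an element of `G_K` -/
lemma mul_inv_mem (h2 : Module.finrank ℚ K = 2) {c σ : GQ} (hc : c ∉ GK j) (hσ : σ ∉ GK j) :
    c * σ⁻¹ ∈ GK j := by
  have hσ' : σ⁻¹ ∉ GK j := fun h => hσ ((GK j).inv_mem_iff.1 h)
  by_contra hn
  have h3 := H20.emb_two h2 (tw_ne j hn).symm (tw c j)
  rcases h3 with h | h
  · exact tw_ne j hc h
  · apply hσ'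
    intro x
    have h4 := DFunLike.congr_fun h x
    exact (c.injective h4).symm

lemma exists_not_mem (h2 : Module.finrank ℚ K = 2) : ∃ σ : GQ, σ ∉ GK j := by
  by_contra hn
  push Not at hn
  have h1 : ∀ x : K, ∃ q : ℚ, (algebraMap ℚ K q) = x := by
    intro x
    have hx : (j x) ∈ (⊥ : IntermediateField ℚ Qb) := by
      rw [InfiniteGalois.mem_bot_iff_fixed]
      intro g
      exact hn g x
    obtain ⟨q, hq⟩ := IntermediateField.mem_bot.1 hx
    refine ⟨q, j.injective ?_⟩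
    rw [← hq]
    simp
  have h3 : Function.Surjective (algebraMap ℚ K) := h1
  have h4 : Module.finrank ℚ K = 1 := by
    have := (Algebra.linearMap ℚ K)
    exact finrank_eq_one_iff_of_nonzero' (1 : K) one_ne_zero |>.2 (fun w => by
      obtain ⟨q, hq⟩ := h3 w
      exact ⟨q, by rw [← hq, Algebra.smul_def, mul_one]⟩)
  omega

/-- there is a prime of `𝓞 ℚ̄` above `p` -/
lemma exists_prime {p : ℕ} (hp : p.Prime) : ∃ P : Ideal (𝓞 Qb), P.IsPrime ∧ (p : 𝓞 Qb) ∈ P := by
  have hnu : (p : 𝓞 Qb) ∈ nonunits (𝓞 Qb) := by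
    intro hu
    obtain ⟨u, hu⟩ := hu.exists_right_inv
    have h1 : (p : Qb) * (u : Qb) = 1 := by
      have := congrArg (fun z : 𝓞 Qb => (z : Qb)) hu
      simpa using this
    have hp0 : (p : Qb) ≠ 0 := by exact_mod_cast hp.ne_zero
    have h2 : (u : Qb) = algebraMap ℚ Qb ((p : ℚ)⁻¹) := by
      rw [map_inv₀, map_natCast]
      field_simp
      linear_combination h1
    have h3 : IsIntegral ℤ ((p : ℚ)⁻¹) := by
      have h4 : IsIntegral ℤ (algebraMap ℚ Qb ((p : ℚ)⁻¹)) := by rw [← h2]; exact u.2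
      exact (isIntegral_algHom_iff ((algebraMap ℚ Qb).toIntAlgHom) (algebraMap ℚ Qb).injective).1 h4
    obtain ⟨n, hn⟩ := IsIntegrallyClosed.isIntegral_iff.1 h3
    have h5 : (p : ℤ) * n = 1 := by
      have : (p : ℚ) * (n : ℚ) = 1 := by
        have h6 : (n : ℚ) = (p : ℚ)⁻¹ := hn
        rw [h6]
        have : (p : ℚ) ≠ 0 := by exact_mod_cast hp.ne_zero
        field_simp
      exact_mod_cast this
    have h7 : (p : ℤ) ∣ 1 := ⟨n, h5.symm⟩
    have h8 : p ∣ 1 := by exact_mod_cast h7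
    exact hp.one_lt.ne' (Nat.dvd_one.1 h8)
  obtain ⟨I, hI, hpI⟩ := exists_max_ideal_of_mem_nonunits hnu
  exact ⟨I, hI.isPrime, hpI⟩

/-- **ramification of `K / ℚ` on the Galois side**: if the prime `p` divides the discriminant of the
quadratic field `K` then the inertia group of EVERY prime of `𝓞 ℚ̄` above `p` has an element outside
`G_K` -/
theorem exists_inertia (h2 : Module.finrank ℚ K = 2) {p : ℕ} (hd : (p : ℤ) ∣ discr K)
    {P : Ideal (𝓞 Qb)} (hP : P.IsPrime) (hpP : (p : 𝓞 Qb) ∈ P) :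
    ∃ σ : GQ, (∀ x : 𝓞 Qb, σ • x - x ∈ P) ∧ σ ∉ GK j := by
  have hdP : ((discr K : ℤ) : 𝓞 Qb) ∈ P := by
    obtain ⟨n, hn⟩ := hd
    rw [hn]
    push_cast
    exact P.mul_mem_right _ hpP
  obtain ⟨σ₀, h0⟩ := exists_not_mem j h2
  have h0' : σ₀⁻¹ ∉ GK j := fun h => h0 ((GK j).inv_mem_iff.1 h)
  have hsP : (σ₀ • P).IsPrime := inferInstance
  have hb : below j (σ₀ • P) = below j P := by
    ext x
    show RingOfIntegers.mapRingHom j x ∈ σ₀ • P ↔ RingOfIntegers.mapRingHom j x ∈ P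
    rw [Ideal.mem_pointwise_smul_iff_inv_smul_mem]
    have h3 := cong' j h2 hP hdP h0' x
    constructor
    · intro h4
      have := P.sub_mem h4 h3
      simpa using this
    · intro h4
      have := P.add_mem h3 h4
      simpa using this
  obtain ⟨τ, hτ⟩ := exists_smul j hsP hP hb
  have h1 : (τ : GQ) * σ₀ ∉ GK j := fun h => h0 (by
    have := (GK j).mul_mem ((GK j).inv_mem τ.2) h
    simpa using this)
  have hst : ((τ : GQ) * σ₀) • P = P := by rw [mul_smul]; exact hτ.symm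
  obtain ⟨g, hg⟩ := exists_lift j hP hst (cong' j h2 hP hdP h1)
  refine ⟨(g : GQ)⁻¹ * ((τ : GQ) * σ₀), fun x => ?_, fun h => h1 ?_⟩
  · have hiff : ∀ y : 𝓞 Qb, (g : GQ) • y ∈ P → y ∈ P := by
      intro y hy
      have h3 : ((τ : GQ) * σ₀) • y ∈ P := by
        have := P.sub_mem hy (hg y)
        simpa using this
      rw [← hst, Ideal.smul_mem_pointwise_smul_iff] at h3
      exact h3
    apply hiff
    rw [smul_sub, smul_smul, mul_inv_cancel_left]
    have := P.neg_mem (hg x)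
    simpa using this
  · have := (GK j).mul_mem g.2 h
    simpa using this

variable {E : Type*} [Field E]

/-- an induced representation is not trivial outside `G_K` -/
theorem ne_one_of_not_mem (h2 : Module.finrank ℚ K = 2) {χ : GK j →* Eˣ}
    {r : GQ →* GL (Fin 2) E} (hr : IsInd j χ r) {σ : GQ} (hσ : σ ∉ GK j) : r σ ≠ 1 := by
  intro h1
  obtain ⟨v, hv, c, hc⟩ := hr
  by_cases hcK : c ∈ GK j
  · exact hc _ (hv ⟨c, hcK⟩)
  · have h3 := mul_inv_mem j h2 hcK hσ
    have h4 : r c = r (c * σ⁻¹) := by rw [map_mul, map_inv, h1, inv_one, mul_one]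
    have h5 := hv ⟨_, h3⟩
    apply hc (χ ⟨_, h3⟩ : E)
    rw [h4]
    exact h5

/-- **the primes dividing the discriminant of `K` are ramified in every representation induced from
`G_K`** -/
theorem ramified_of_dvd_discr (h2 : Module.finrank ℚ K = 2) {χ : GK j →* Eˣ}
    {r : GQ →* GL (Fin 2) E} (hr : IsInd j χ r) {p : ℕ} (hp : p.Prime) (hd : (p : ℤ) ∣ discr K) :
    ¬ UnrAt r p := by
  intro hu
  obtain ⟨P, hP, hpP⟩ := exists_prime hp
  obtain ⟨σ, hσ, hσK⟩ := exists_inertia j h2 hd hP hpP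
  exact ne_one_of_not_mem j h2 hr hσK (hu P hP hpP σ hσ)

omit [NumberField K] in
/-- the primes below the primes where `χ` is ramified are ramified in `r` -/
theorem ramified_of_char {χ : GK j →* Eˣ} {r : GQ →* GL (Fin 2) E} (hr : IsInd j χ r) {p : ℕ}
    {P : Ideal (𝓞 Qb)} (hP : P.IsPrime) (hpP : (p : 𝓞 Qb) ∈ P) {g : GK j}
    (hg : ∀ x : 𝓞 Qb, (g : GQ) • x - x ∈ P) (hχ : χ g ≠ 1) : ¬ UnrAt r p := by
  intro hu
  obtain ⟨v, hv, c, hc⟩ := hr
  have h1 := hu P hP hpP g hg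
  have h3 := hv g
  rw [h1] at h3
  have hv0 : v ≠ 0 := by
    rintro rfl
    exact hc 0 (by simp)
  apply hχ
  apply Units.ext
  obtain ⟨i, hi⟩ := Function.ne_iff.1 hv0
  have h4 := congrFun h3 i
  simp only [Units.val_one, one_mulVec, Pi.smul_apply, smul_eq_mul] at h4
  have h5 : ((χ g : E) - 1) * v i = 0 := by linear_combination -h4
  rcases mul_eq_zero.1 h5 with h | h
  · exact sub_eq_zero.1 h
  · exact absurd h hi

end

end Vale.Agent.P022.H916
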