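import Vale.Agent.P022.H916.Ram

/-! # P022, CFT: the Galois dictionary (helper916)

Open subgroups of `G_K` which are normal in `G_K` correspond to finite Galois extensions `L / K`. -/

open NumberField Matrix
open scoped Pointwise

noncomputable section

namespace Vale.Agent.P022.H916

/-- `L / K` is given inside `ℚ̄`, `ρ` is the restriction map `G_K → Gal(L/K)` -/
structure Dict {K L : Type*} [Field K] [Field L] [Algebra K L] (j : K →+* Qb) (jL : L →+* Qb)
    (ρ : GK j →* (L ≃ₐ[K] L)) : Prop where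
  comp : ∀ x : K, jL (algebraMap K L x) = j x
  act : ∀ (g : GK j) (x : L), (g : GQ) (jL x) = jL (ρ g x)
  surj : Function.Surjective ρ

section

variable {K : Type*} [Field K] [NumberField K] (j : K →+* Qb) (U : Subgroup GQ)

/-- the fixed field of `U` -/
abbrev FF : Type := IntermediateField.fixedField U

omit [NumberField K] in
lemma fix_mem (hle : U ≤ GK j) (x : K) : j x ∈ IntermediateField.fixedField U := by
  rw [IntermediateField.mem_fixedField_iff]
  intro g hg
  exact hle hg x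

/-- the inclusion of `K` in the fixed field of `U ≤ G_K` -/
def incl (hle : U ≤ GK j) : K →+* FF U :=
  j.codRestrict (IntermediateField.fixedField U) (fix_mem j U hle)

omit [NumberField K] in
lemma smul_mem (hn : ∀ g ∈ GK j, ∀ u ∈ U, g * u * g⁻¹ ∈ U) {g : GQ} (hg : g ∈ GK j) {x : Qb}
    (hx : x ∈ IntermediateField.fixedField U) : g x ∈ IntermediateField.fixedField U := by
  rw [IntermediateField.mem_fixedField_iff] at hx ⊢
  intro u hu
  have h1 := hn g⁻¹ ((GK j).inv_mem hg) u hu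
  have h2 := hx _ h1
  rw [inv_inv] at h2
  have h3 : u (g x) = g ((g⁻¹ * u * g) x) := by
    simp only [← AlgEquiv.mul_apply]
    congr 1
    group
  rw [h3, h2]

/-- the action of `G_K` on the fixed field of a subgroup normal in `G_K` -/
@[instance_reducible]
def actU (hn : ∀ g ∈ GK j, ∀ u ∈ U, g * u * g⁻¹ ∈ U) : MulSemiringAction (GK j) (FF U) where
  smul g x := ⟨(g : GQ) x, smul_mem j U hn g.2 x.2⟩
  one_smul _ := rfl
  mul_smul _ _ _ := rfl
  smul_zero _ := Subtype.ext (map_zero _)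
  smul_add _ _ _ := Subtype.ext (map_add _ _ _)
  smul_one _ := Subtype.ext (map_one _)
  smul_mul _ _ _ := Subtype.ext (map_mul _ _ _)

lemma finU (hU : IsOpen (U : Set GQ)) : FiniteDimensional ℚ (FF U) := by
  have hcl : IsClosed (U : Set GQ) := OpenSubgroup.isClosed ⟨U, hU⟩
  have h1 : (IntermediateField.fixedField U).fixingSubgroup = U :=
    InfiniteGalois.fixingSubgroup_fixedField ⟨U, hcl⟩
  rw [← InfiniteGalois.isOpen_iff_finite, h1]
  exact hU

/-- **open subgroups of `G_K` normal in `G_K` are the kernels of the restriction maps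
`G_K → Gal(L/K)`, `L / K` finite Galois** -/
theorem exists_fld (hU : IsOpen (U : Set GQ)) (hle : U ≤ GK j)
    (hn : ∀ g ∈ GK j, ∀ u ∈ U, g * u * g⁻¹ ∈ U) :
    ∃ (L : Type) (_ : Field L) (_ : NumberField L) (_ : Algebra K L) (_ : IsGalois K L)
      (jL : L →+* Qb) (ρ : GK j →* (L ≃ₐ[K] L)), Dict j jL ρ ∧ GK jL = U ∧
        ∀ g : GK j, ρ g = 1 ↔ (g : GQ) ∈ U := by
  have hcl : IsClosed (U : Set GQ) := OpenSubgroup.isClosed ⟨U, hU⟩
  have hfix : (IntermediateField.fixedField U).fixingSubgroup = U :=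
    InfiniteGalois.fixingSubgroup_fixedField ⟨U, hcl⟩
  have hfin : FiniteDimensional ℚ (FF U) := finU U hU
  have hNF : NumberField (FF U) := { to_charZero := inferInstance, to_finiteDimensional := hfin }
  let _ : Algebra K (FF U) := (incl j U hle).toAlgebra
  let _ : MulSemiringAction (GK j) (FF U) := actU j U hn
  have hcomm : SMulCommClass (GK j) K (FF U) := by
    refine ⟨fun g a b => ?_⟩
    apply Subtype.ext
    show (g : GQ) (j a * (b : Qb)) = j a * (g : GQ) b
    rw [map_mul, g.2 a]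
  have hfdK : FiniteDimensional K (FF U) := Module.Finite.of_restrictScalars_finite ℚ K (FF U)
  let ρ : GK j →* (FF U ≃ₐ[K] FF U) := MulSemiringAction.toAlgAut (GK j) K (FF U)
  have hρ : ∀ (g : GK j) (x : FF U), ((ρ g x : FF U) : Qb) = (g : GQ) x := fun g x => rfl
  have hker : ∀ g : GK j, ρ g = 1 ↔ (g : GQ) ∈ U := by
    intro g
    constructor
    · intro h
      rw [← hfix, IntermediateField.mem_fixingSubgroup_iff]
      intro x hx
      have := congrArg (fun z : FF U => (z : Qb)) (DFunLike.congr_fun h (⟨x, hx⟩ : FF U))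
      exact this
    · intro h
      apply AlgEquiv.ext
      intro x
      apply Subtype.ext
      have h1 := x.2
      rw [IntermediateField.mem_fixedField_iff] at h1
      exact h1 _ h
  have hbot : IntermediateField.fixedField ρ.range = ⊥ := by
    rw [eq_bot_iff]
    intro x hx
    rw [IntermediateField.mem_fixedField_iff] at hx
    have h1 : ∀ g : GK j, (g : GQ) (x : Qb) = x := by
      intro g
      have := congrArg (fun z : FF U => (z : Qb)) (hx (ρ g) ⟨g, rfl⟩)
      exact this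
    obtain ⟨y, hy⟩ := fixed j h1
    rw [IntermediateField.mem_bot]
    exact ⟨y, Subtype.ext hy⟩
  have hgal : IsGalois K (FF U) := by
    apply IsGalois.of_fixedField_eq_bot
    rw [eq_bot_iff, ← hbot]
    exact IntermediateField.fixedField_antitone le_top
  have hsurj : Function.Surjective ρ := by
    rw [← MonoidHom.range_eq_top]
    rw [← IntermediateField.fixingSubgroup_fixedField ρ.range, hbot,
      IntermediateField.fixingSubgroup_bot]
  refine ⟨FF U, inferInstance, hNF, inferInstance, hgal,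
    (IntermediateField.fixedField U).val.toRingHom, ρ, ⟨fun x => rfl, fun g x => rfl, hsurj⟩, ?_,
    hker⟩
  ext g
  constructor
  · intro h
    rw [← hfix, IntermediateField.mem_fixingSubgroup_iff]
    intro x hx
    exact h (⟨x, hx⟩ : FF U)
  · intro h x
    have h1 := x.2
    rw [IntermediateField.mem_fixedField_iff] at h1
    exact h1 _ h

end

section dict

variable {K L : Type*} [Field K] [NumberField K] [Field L] [NumberField L] [Algebra K L]
  {j : K →+* Qb} {jL : L →+* Qb} {ρ : GK j →* (L ≃ₐ[K] L)}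

omit [NumberField K] [NumberField L] in
lemma Dict.smul_map (D : Dict j jL ρ) (g : GK j) (y : 𝓞 L) :
    (g : GQ) • RingOfIntegers.mapRingHom jL y = RingOfIntegers.mapRingHom jL (ρ g • y) := by
  apply RingOfIntegers.ext
  exact D.act g y

omit [NumberField K] [NumberField L] in
lemma Dict.mem_GK (D : Dict j jL ρ) {g : GQ} (h : g ∈ GK jL) : g ∈ GK j := by
  intro x
  rw [← D.comp]
  exact h _

omit [NumberField K] [NumberField L] in
lemma Dict.ker (D : Dict j jL ρ) (g : GK j) : ρ g = 1 ↔ (g : GQ) ∈ GK jL := by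
  constructor
  · intro h x
    rw [D.act, h]
    rfl
  · intro h
    apply AlgEquiv.ext
    intro x
    apply jL.injective
    rw [← D.act]
    exact h x

omit [NumberField K] [NumberField L] in
lemma Dict.below_smul (D : Dict j jL ρ) (g : GK j) (P : Ideal (𝓞 Qb)) :
    below jL ((g : GQ) • P) = ρ g • below jL P := by
  ext x
  rw [Ideal.mem_pointwise_smul_iff_inv_smul_mem]
  show RingOfIntegers.mapRingHom jL x ∈ (g : GQ) • P ↔
    RingOfIntegers.mapRingHom jL ((ρ g)⁻¹ • x) ∈ P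
  rw [Ideal.mem_pointwise_smul_iff_inv_smul_mem, ← map_inv, ← D.smul_map g⁻¹ x]
  rfl

omit [NumberField K] [NumberField L] in
/-- the prime of `K` below is the prime below the prime of `L` below -/
lemma Dict.below_comap (D : Dict j jL ρ) (P : Ideal (𝓞 Qb)) :
    (below jL P).comap (algebraMap (𝓞 K) (𝓞 L)) = below j P := by
  ext x
  show RingOfIntegers.mapRingHom jL (algebraMap (𝓞 K) (𝓞 L) x) ∈ P ↔
    RingOfIntegers.mapRingHom j x ∈ P
  have : RingOfIntegers.mapRingHom jL (algebraMap (𝓞 K) (𝓞 L) x) =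
      RingOfIntegers.mapRingHom j x := by
    apply RingOfIntegers.ext
    exact D.comp x
  rw [this]

omit [NumberField K] [NumberField L] in
/-- inertia elements restrict to inertia elements -/
lemma Dict.inertia_push (D : Dict j jL ρ) {P : Ideal (𝓞 Qb)} {g : GK j}
    (hg : ∀ x : 𝓞 Qb, (g : GQ) • x - x ∈ P) (y : 𝓞 L) : ρ g • y - y ∈ below jL P := by
  show RingOfIntegers.mapRingHom jL (ρ g • y - y) ∈ P
  rw [map_sub, ← D.smul_map]
  exact hg _

omit [NumberField K] in
/-- **inertia elements of `Gal(L/K)` lift to inertia elements of `G_K`** -/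
theorem Dict.inertia_lift (D : Dict j jL ρ) {P : Ideal (𝓞 Qb)} (hP : P.IsPrime) {τ : L ≃ₐ[K] L}
    (hτ : ∀ y : 𝓞 L, τ • y - y ∈ below jL P) :
    ∃ g : GK j, ρ g = τ ∧ ∀ x : 𝓞 Qb, (g : GQ) • x - x ∈ P := by
  obtain ⟨g₀, h0⟩ := D.surj τ
  have hst : τ • below jL P = below jL P := by
    ext x
    rw [Ideal.mem_pointwise_smul_iff_inv_smul_mem]
    have h1 := hτ (τ⁻¹ • x)
    rw [smul_inv_smul] at h1
    constructor
    · intro h
      have := (below jL P).add_mem h1 h
      simpa using this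
    · intro h
      have := (below jL P).sub_mem h h1
      simpa using this
  have hsP : ((g₀ : GQ) • P).IsPrime := inferInstance
  have hb : below jL ((g₀ : GQ) • P) = below jL P := by rw [D.below_smul, h0, hst]
  obtain ⟨h, hh⟩ := exists_smul jL hsP hP hb
  let h' : GK j := ⟨(h : GQ), D.mem_GK h.2⟩
  have hρh : ρ h' = 1 := (D.ker h').2 h.2
  let g₁ : GK j := h' * g₀
  have hρ1 : ρ g₁ = τ := by rw [map_mul, hρh, h0, one_mul]
  have hst1 : (g₁ : GQ) • P = P := by
    show ((h : GQ) * (g₀ : GQ)) • P = P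
    rw [mul_smul]
    exact hh.symm
  obtain ⟨u, hu⟩ := exists_lift jL hP hst1 (fun x => by
    rw [D.smul_map, hρ1, ← map_sub]
    exact hτ x)
  let u' : GK j := ⟨(u : GQ), D.mem_GK u.2⟩
  have hρu : ρ u' = 1 := (D.ker u').2 u.2
  refine ⟨u'⁻¹ * g₁, by rw [map_mul, map_inv, hρu, hρ1, inv_one, one_mul], fun x => ?_⟩
  have hiff : ∀ y : 𝓞 Qb, (u : GQ) • y ∈ P → y ∈ P := by
    intro y hy
    have h3 : (g₁ : GQ) • y ∈ P := by
      have := P.sub_mem hy (hu y)
      simpa using this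
    rw [← hst1, Ideal.smul_mem_pointwise_smul_iff] at h3
    exact h3
  apply hiff
  show (u : GQ) • (((u : GQ)⁻¹ * (g₁ : GQ)) • x - x) ∈ P
  rw [smul_sub, smul_smul, mul_inv_cancel_left]
  have := P.neg_mem (hu x)
  simpa using this

/-- **Frobenius elements exist in `G_K`** -/
theorem exists_frob (j : K →+* Qb) {P : Ideal (𝓞 Qb)} (hP : P.IsPrime) {ℓ : ℕ} (hℓ : ℓ.Prime)
    (hlP : (ℓ : 𝓞 Qb) ∈ P) :
    ∃ g : GK j, ∀ x : 𝓞 Qb, (g : GQ) • x - x ^ Ideal.absNorm (below j P) ∈ P := by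
  let _ := algj j
  have := inv_j j
  have := comm_j j
  let _ : TopologicalSpace (𝓞 Qb) := ⊥
  have : DiscreteTopology (𝓞 Qb) := ⟨rfl⟩
  have := cont_j j
  have hl : P.LiesOver (below j P) := ⟨rfl⟩
  have hint : Algebra.IsIntegral (𝓞 K) (𝓞 Qb) :=
    Algebra.IsInvariant.isIntegral_of_profinite (G := GK j)
  have hpp : (below j P).IsPrime := Ideal.IsPrime.comap _
  have hne : below j P ≠ ⊥ := by
    intro h0
    have : (ℓ : 𝓞 K) ∈ below j P := by
      show RingOfIntegers.mapRingHom j (ℓ : 𝓞 K) ∈ P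
      rw [map_natCast]
      exact hlP
    rw [h0, Ideal.mem_bot] at this
    exact hℓ.ne_zero (by exact_mod_cast this)
  have hpm : (below j P).IsMaximal := hpp.isMaximal hne
  have hPm : P.IsMaximal := Ideal.isMaximal_of_isIntegral_of_isMaximal_comap P hpm
  let _ : Field (𝓞 K ⧸ below j P) := Ideal.Quotient.field _
  let _ : Field (𝓞 Qb ⧸ P) := Ideal.Quotient.field _
  have : Finite (𝓞 K ⧸ below j P) := Ideal.finiteQuotientOfFreeOfNeBot _ hne
  let _ : Fintype (𝓞 K ⧸ below j P) := Fintype.ofFinite _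
  have halg : Algebra.IsAlgebraic (𝓞 K ⧸ below j P) (𝓞 Qb ⧸ P) := by
    have : Algebra.IsIntegral (𝓞 K ⧸ below j P) (𝓞 Qb ⧸ P) :=
      Ideal.Quotient.algebra_isIntegral_of_liesOver P (below j P)
    exact this.isAlgebraic
  obtain ⟨g, hg⟩ := Ideal.Quotient.stabilizerHom_surjective_of_profinite (G := GK j)
    (below j P) P (FiniteField.frobeniusAlgEquivOfAlgebraic (𝓞 K ⧸ below j P) (𝓞 Qb ⧸ P))
  refine ⟨g.1, fun x => ?_⟩
  have h1 := DFunLike.congr_fun hg (Ideal.Quotient.mk P x)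
  rw [← Ideal.Quotient.eq]
  have hcard : Ideal.absNorm (below j P) = Fintype.card (𝓞 K ⧸ below j P) := by
    rw [Ideal.absNorm_apply, Submodule.cardQuot_apply, Nat.card_eq_fintype_card]
  rw [hcard, map_pow]
  exact h1

omit [NumberField K] [NumberField L] in
/-- Frobenius elements restrict to Frobenius elements -/
lemma Dict.frob_push (D : Dict j jL ρ) {P : Ideal (𝓞 Qb)} {g : GK j} {q : ℕ}
    (hg : ∀ x : 𝓞 Qb, (g : GQ) • x - x ^ q ∈ P) (y : 𝓞 L) : ρ g • y - y ^ q ∈ below jL P := by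
  show RingOfIntegers.mapRingHom jL (ρ g • y - y ^ q) ∈ P
  rw [map_sub, map_pow, ← D.smul_map]
  exact hg _

/-- an element acting as a power map modulo `𝔮` stabilizes `𝔮` (one inclusion) -/
lemma mem_of_frob {P : Ideal (𝓞 Qb)} (hP : P.IsPrime) {g : GQ} {q : ℕ} (hq : q ≠ 0)
    (hg : ∀ x : 𝓞 Qb, g • x - x ^ q ∈ P) (x : 𝓞 Qb) : g • x ∈ P ↔ x ∈ P := by
  constructor
  · intro h
    have h1 := P.sub_mem h (hg x)
    rw [sub_sub_cancel] at h1
    exact hP.mem_of_pow_mem q h1
  · intro h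
    have h1 := P.add_mem (hg x) (Ideal.pow_mem_of_mem P h q (Nat.pos_of_ne_zero hq))
    simpa using h1

/-- **Frobenius elements of `Gal(L/K)` at the prime below `P` lift to Frobenius elements of `G_K`
at `P`** -/
theorem Dict.frob_lift (D : Dict j jL ρ) {P : Ideal (𝓞 Qb)} (hP : P.IsPrime) {ℓ : ℕ}
    (hℓ : ℓ.Prime) (hlP : (ℓ : 𝓞 Qb) ∈ P) {τ : L ≃ₐ[K] L}
    (hτ : ∀ y : 𝓞 L, τ • y - y ^ Ideal.absNorm (below j P) ∈ below jL P) :
    ∃ g : GK j, ρ g = τ ∧ ∀ x : 𝓞 Qb, (g : GQ) • x - x ^ Ideal.absNorm (below j P) ∈ P := by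
  obtain ⟨g₀, h0⟩ := exists_frob j hP hℓ hlP
  set q := Ideal.absNorm (below j P) with hq
  have hq0 : q ≠ 0 := by
    intro h1
    have h2 := h0 0
    rw [h1, pow_zero, smul_zero, zero_sub] at h2
    exact hP.ne_top ((Ideal.eq_top_iff_one _).2 (by simpa using P.neg_mem h2))
  have h1 := D.frob_push h0
  -- `ρ g₀⁻¹ τ` is an inertia element
  have hmem : ∀ y : 𝓞 L, ρ g₀ • y ∈ below jL P → y ∈ below jL P := by
    intro y hy
    have h2 : RingOfIntegers.mapRingHom jL (ρ g₀ • y) ∈ P := hy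
    rw [← D.smul_map] at h2
    exact (mem_of_frob hP hq0 h0 _).1 h2
  have hin : ∀ y : 𝓞 L, ((ρ g₀)⁻¹ * τ) • y - y ∈ below jL P := by
    intro y
    apply hmem
    rw [smul_sub, smul_smul, mul_inv_cancel_left]
    have := (below jL P).sub_mem (hτ y) (h1 y)
    simpa using this
  obtain ⟨h, hρh, hh⟩ := D.inertia_lift hP hin
  refine ⟨g₀ * h, by rw [map_mul, hρh, mul_inv_cancel_left], fun x => ?_⟩
  have h3 : ((g₀ * h : GK j) : GQ) • x = (g₀ : GQ) • ((h : GQ) • x - x) + (g₀ : GQ) • x := by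
    rw [smul_sub, sub_add_cancel, smul_smul]
    rfl
  have h4 : (g₀ : GQ) • ((h : GQ) • x - x) ∈ P := (mem_of_frob hP hq0 h0 _).2 (hh x)
  rw [h3, add_sub_assoc]
  exact P.add_mem h4 (h0 x)

/-- every prime of `𝓞 L` is below a prime of `𝓞 ℚ̄` -/
lemma exists_above (jL : L →+* Qb) (𝔮 : Ideal (𝓞 L)) (h𝔮 : 𝔮.IsPrime) :
    ∃ P : Ideal (𝓞 Qb), P.IsPrime ∧ below jL P = 𝔮 := by
  let _ := algj jL
  have := inv_j jL
  have := comm_j jL
  let _ : TopologicalSpace (𝓞 Qb) := ⊥
  have : DiscreteTopology (𝓞 Qb) := ⟨rfl⟩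
  have := cont_j jL
  have hint : Algebra.IsIntegral (𝓞 L) (𝓞 Qb) :=
    Algebra.IsInvariant.isIntegral_of_profinite (G := GK jL)
  have hinj : Function.Injective (algebraMap (𝓞 L) (𝓞 Qb)) := by
    intro x y hxy
    apply RingOfIntegers.ext
    apply jL.injective
    exact congrArg (fun z : 𝓞 Qb => (z : Qb)) hxy
  obtain ⟨P, hP, hc⟩ := Ideal.exists_ideal_over_prime_of_isIntegral_of_isDomain 𝔮
    (by rw [(RingHom.injective_iff_ker_eq_bot _).1 hinj]; exact bot_le)
  exact ⟨P, hP, hc⟩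

omit [NumberField K] in
/-- **`L / K` is unramified at the primes where the inertia groups of `G_K` are in the kernel** -/
theorem Dict.inertia_eq_bot (D : Dict j jL ρ) {P : Ideal (𝓞 Qb)} (hP : P.IsPrime)
    (h : ∀ g : GK j, (∀ x : 𝓞 Qb, (g : GQ) • x - x ∈ P) → ρ g = 1) {τ : L ≃ₐ[K] L}
    (hτ : ∀ y : 𝓞 L, τ • y - y ∈ below jL P) : τ = 1 := by
  obtain ⟨g, rfl, hg⟩ := D.inertia_lift hP hτ
  exact h g hg

end dict

end Vale.Agent.P022.H916
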