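import Vale.Agent.P022.H916.Ram

/-! # P022: the induced representation `Ind χ` of a character `χ` of `G_K`, `K` quadratic
(helper916) -/

open NumberField Matrix

noncomputable section

namespace Vale.Agent.P022.H916

section

variable {K : Type*} [Field K] [NumberField K] (j : K →+* Qb) {E : Type*} [Field E]

open Classical in
/-- `χ` extended by zero -/
def ext0 (χ : GK j →* Eˣ) (g : GQ) : E := if h : g ∈ GK j then (χ ⟨g, h⟩ : E) else 0

omit [NumberField K] in
lemma ext0_mem (χ : GK j →* Eˣ) {g : GQ} (h : g ∈ GK j) : ext0 j χ g = χ ⟨g, h⟩ := dif_pos h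

omit [NumberField K] in
lemma ext0_not (χ : GK j →* Eˣ) {g : GQ} (h : g ∉ GK j) : ext0 j χ g = 0 := dif_neg h

omit [NumberField K] in
lemma ext0_mul (χ : GK j →* Eˣ) {g h : GQ} (hh : h ∈ GK j) :
    ext0 j χ (g * h) = ext0 j χ g * ext0 j χ h := by
  by_cases hg : g ∈ GK j
  · rw [ext0_mem j χ hg, ext0_mem j χ hh, ext0_mem j χ ((GK j).mul_mem hg hh)]
    rw [← Units.val_mul, ← map_mul]
    rfl
  · rw [ext0_not j χ hg, zero_mul, ext0_not]
    intro h3
    exact hg (((GK j).mul_mem_cancel_right hh).1 h3)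

/-- exactly one of `y`, `c⁻¹ y` is in `G_K` -/
lemma inv_mul_mem_iff (h2 : Module.finrank ℚ K = 2) {c : GQ} (hc : c ∉ GK j) (y : GQ) :
    c⁻¹ * y ∈ GK j ↔ y ∉ GK j := by
  constructor
  · intro h hy
    apply hc
    have := (GK j).mul_mem hy ((GK j).inv_mem h)
    simpa using this
  · intro hy
    have hc' : c⁻¹ ∉ GK j := fun h => hc ((GK j).inv_mem_iff.1 h)
    have hy' : y⁻¹ ∉ GK j := fun h => hy ((GK j).inv_mem_iff.1 h)
    have := mul_inv_mem j h2 hc' hy'
    simpa using this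

lemma ext0_split (h2 : Module.finrank ℚ K = 2) {c : GQ} (hc : c ∉ GK j) (χ : GK j →* Eˣ)
    (x y : GQ) :
    ext0 j χ (x * y) = ext0 j χ x * ext0 j χ y + ext0 j χ (x * c) * ext0 j χ (c⁻¹ * y) := by
  by_cases hy : y ∈ GK j
  · have h3 : c⁻¹ * y ∉ GK j := fun h => (inv_mul_mem_iff j h2 hc y).1 h hy
    rw [ext0_not j χ h3, ext0_mul j χ hy, mul_zero, add_zero]
  · have h3 : c⁻¹ * y ∈ GK j := (inv_mul_mem_iff j h2 hc y).2 hy
    rw [ext0_not j χ hy, mul_zero, zero_add, ← ext0_mul j χ h3]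
    congr 1
    group

/-- the matrix of `g` in `Ind χ`, in the basis `1, c` -/
def indMat (χ : GK j →* Eˣ) (c g : GQ) : Matrix (Fin 2) (Fin 2) E :=
  !![ext0 j χ g, ext0 j χ (g * c); ext0 j χ (c⁻¹ * g), ext0 j χ (c⁻¹ * g * c)]

lemma indMat_mul (h2 : Module.finrank ℚ K = 2) {c : GQ} (hc : c ∉ GK j) (χ : GK j →* Eˣ)
    (g h : GQ) : indMat j χ c (g * h) = indMat j χ c g * indMat j χ c h := by
  unfold indMat
  rw [Matrix.mul_fin_two]
  congr 1
  have e1 := ext0_split j h2 hc χ g h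
  have e2 := ext0_split j h2 hc χ g (h * c)
  have e3 := ext0_split j h2 hc χ (c⁻¹ * g) h
  have e4 := ext0_split j h2 hc χ (c⁻¹ * g) (h * c)
  simp only [← mul_assoc] at e1 e2 e3 e4 ⊢
  rw [e1, e2, e3, e4]

omit [NumberField K] in
lemma indMat_one (χ : GK j →* Eˣ) {c : GQ} (hc : c ∉ GK j) : indMat j χ c 1 = 1 := by
  have hc' : c⁻¹ ∉ GK j := fun h => hc ((GK j).inv_mem_iff.1 h)
  have h1 : ext0 j χ 1 = 1 := by
    rw [ext0_mem j χ (GK j).one_mem]
    have : (⟨1, (GK j).one_mem⟩ : GK j) = 1 := rfl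
    rw [this, map_one, Units.val_one]
  unfold indMat
  rw [one_mul, mul_one, inv_mul_cancel, h1, ext0_not j χ hc, ext0_not j χ hc']
  exact Matrix.one_fin_two.symm

/-- **`Ind χ`** (the induced representation of the character `χ` of `G_K`, `K` quadratic) -/
def Ind (h2 : Module.finrank ℚ K = 2) {c : GQ} (hc : c ∉ GK j) (χ : GK j →* Eˣ) :
    GQ →* GL (Fin 2) E where
  toFun g := ⟨indMat j χ c g, indMat j χ c g⁻¹,
    by rw [← indMat_mul j h2 hc, mul_inv_cancel, indMat_one j χ hc],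
    by rw [← indMat_mul j h2 hc, inv_mul_cancel, indMat_one j χ hc]⟩
  map_one' := by
    apply Units.ext
    exact indMat_one j χ hc
  map_mul' g h := by
    apply Units.ext
    exact indMat_mul j h2 hc χ g h

lemma Ind_coe (h2 : Module.finrank ℚ K = 2) {c : GQ} (hc : c ∉ GK j) (χ : GK j →* Eˣ) (g : GQ) :
    (Ind j h2 hc χ g : Matrix (Fin 2) (Fin 2) E) = indMat j χ c g := rfl

/-- on `G_K` the representation is `χ ⊕ χ^c` -/
lemma Ind_GK (h2 : Module.finrank ℚ K = 2) {c : GQ} (hc : c ∉ GK j) (χ : GK j →* Eˣ) (h : GK j) :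
    (Ind j h2 hc χ h : Matrix (Fin 2) (Fin 2) E) =
      !![(χ h : E), 0; 0, ext0 j χ (c⁻¹ * h * c)] := by
  rw [Ind_coe]
  unfold indMat
  have h1 : (h : GQ) * c ∉ GK j := fun h3 => hc (((GK j).mul_mem_cancel_left h.2).1 h3)
  have h3 : c⁻¹ * (h : GQ) ∉ GK j := fun h4 => (inv_mul_mem_iff j h2 hc _).1 h4 h.2
  rw [ext0_mem j χ h.2, ext0_not j χ h1, ext0_not j χ h3]

/-- `Ind χ (c)` -/
lemma Ind_c (h2 : Module.finrank ℚ K = 2) {c : GQ} (hc : c ∉ GK j) (χ : GK j →* Eˣ) :
    (Ind j h2 hc χ c : Matrix (Fin 2) (Fin 2) E) = !![0, ext0 j χ (c * c); 1, 0] := by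
  rw [Ind_coe]
  unfold indMat
  have h1 : ext0 j χ 1 = 1 := by
    rw [ext0_mem j χ (GK j).one_mem]
    have : (⟨1, (GK j).one_mem⟩ : GK j) = 1 := rfl
    rw [this, map_one, Units.val_one]
  rw [inv_mul_cancel, one_mul, ext0_not j χ hc, h1]

/-- `Ind χ` is induced from `χ` -/
theorem isInd_Ind (h2 : Module.finrank ℚ K = 2) {c : GQ} (hc : c ∉ GK j) (χ : GK j →* Eˣ) :
    IsInd j χ (Ind j h2 hc χ) := by
  refine ⟨![1, 0], fun h => ?_, c, fun a ha => ?_⟩
  · rw [Ind_GK j h2 hc χ h]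
    ext i
    fin_cases i <;> simp [Matrix.mulVec, dotProduct, Fin.sum_univ_two]
  · rw [Ind_c j h2 hc χ] at ha
    have := congrFun ha 1
    simp [Matrix.mulVec, dotProduct, Fin.sum_univ_two] at this

/-- the action of `g` on the eigenvector -/
lemma ind_vec (h2 : Module.finrank ℚ K = 2) {c : GQ} (hc : c ∉ GK j) {χ : GK j →* Eˣ}
    {r : GQ →* GL (Fin 2) E} {v : Fin 2 → E}
    (hv : ∀ h : GK j, (r h : Matrix (Fin 2) (Fin 2) E) *ᵥ v = (χ h : E) • v) (g : GQ) :
    (r g : Matrix (Fin 2) (Fin 2) E) *ᵥ v = ext0 j χ g • v +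
      ext0 j χ (c⁻¹ * g) • ((r c : Matrix (Fin 2) (Fin 2) E) *ᵥ v) := by
  by_cases hg : g ∈ GK j
  · have h3 : c⁻¹ * g ∉ GK j := fun h => (inv_mul_mem_iff j h2 hc g).1 h hg
    rw [ext0_mem j χ hg, ext0_not j χ h3, zero_smul, add_zero]
    exact hv ⟨g, hg⟩
  · have h3 : c⁻¹ * g ∈ GK j := (inv_mul_mem_iff j h2 hc g).2 hg
    rw [ext0_not j χ hg, ext0_mem j χ h3, zero_smul, zero_add]
    have h4 : r g = r c * r (c⁻¹ * g) := by rw [← map_mul, mul_inv_cancel_left]
    rw [h4, Units.val_mul, ← Matrix.mulVec_mulVec]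
    have h5 := hv ⟨_, h3⟩
    simp only at h5
    rw [h5, Matrix.mulVec_smul]

/-- **every representation induced from `χ` is conjugate to `Ind χ`** -/
theorem exists_conj (h2 : Module.finrank ℚ K = 2) {c : GQ} (hc : c ∉ GK j) {χ : GK j →* Eˣ}
    {r : GQ →* GL (Fin 2) E} (hr : IsInd j χ r) :
    ∃ A : GL (Fin 2) E, ∀ g, r g = A * Ind j h2 hc χ g * A⁻¹ := by
  obtain ⟨v, hv, c₀, hc₀⟩ := hr
  set w : Fin 2 → E := (r c : Matrix (Fin 2) (Fin 2) E) *ᵥ v with hw
  have hvec := ind_vec j h2 hc hv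
  rw [← hw] at hvec
  have hv0 : v ≠ 0 := by
    rintro rfl
    exact hc₀ 0 (by simp)
  have hne : ∀ a : E, w ≠ a • v := by
    intro a ha
    apply hc₀ (ext0 j χ c₀ + ext0 j χ (c⁻¹ * c₀) * a)
    rw [hvec, ha, add_smul, mul_smul]
  have hdet : v 0 * w 1 - w 0 * v 1 ≠ 0 := by
    intro h0
    by_cases h00 : v 0 = 0
    · have h01 : v 1 ≠ 0 := by
        intro h01
        apply hv0
        ext i
        fin_cases i <;> simp [h00, h01]
      have h02 : w 0 = 0 := by
        rw [h00, zero_mul, zero_sub, neg_eq_zero] at h0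
        exact (mul_eq_zero.1 h0).resolve_right h01
      apply hne (w 1 / v 1)
      ext i
      fin_cases i
      · simp [h00, h02]
      · simp [h01]
    · apply hne (w 0 / v 0)
      ext i
      fin_cases i
      · simp [h00]
      · simp only [Fin.mk_one, Pi.smul_apply, smul_eq_mul]
        field_simp
        linear_combination h0
  let M : Matrix (Fin 2) (Fin 2) E := !![v 0, w 0; v 1, w 1]
  have hM : M.det ≠ 0 := by
    rw [Matrix.det_fin_two_of]
    exact hdet
  let A : GL (Fin 2) E := Matrix.GeneralLinearGroup.mkOfDetNeZero M hM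
  refine ⟨A, fun g => ?_⟩
  rw [eq_mul_inv_iff_mul_eq]
  apply Units.ext
  rw [Units.val_mul, Units.val_mul, Ind_coe]
  show (r g : Matrix (Fin 2) (Fin 2) E) * M = M * indMat j χ c g
  have h1 := hvec g
  have h3 : (r g : Matrix (Fin 2) (Fin 2) E) *ᵥ w = ext0 j χ (g * c) • v +
      ext0 j χ (c⁻¹ * g * c) • w := by
    rw [mul_assoc, ← hvec (g * c), hw, Matrix.mulVec_mulVec, ← Units.val_mul, ← map_mul]
  have p1 := congrFun h1 0
  have p2 := congrFun h1 1
  have p3 := congrFun h3 0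
  have p4 := congrFun h3 1
  simp only [Matrix.mulVec, dotProduct, Fin.sum_univ_two, Pi.add_apply, Pi.smul_apply,
    smul_eq_mul] at p1 p2 p3 p4
  unfold indMat
  ext i k
  fin_cases i <;> fin_cases k <;>
    simp only [M, Matrix.mul_apply, Fin.sum_univ_two, Matrix.of_apply, Matrix.cons_val', Matrix.cons_val_zero,
      Matrix.cons_val_one, Fin.zero_eta, Fin.mk_one, Matrix.cons_val_fin_one, Fin.isValue]
  · linear_combination p1
  · linear_combination p3
  · linear_combination p2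
  · linear_combination p4

/-- no line of `Ē²` is stable: `r` is absolutely irreducible -/
def AbsIrred {E : Type*} [Field E] (r : GQ →* GL (Fin 2) E) : Prop :=
  ∀ v : Fin 2 → AlgebraicClosure E, v ≠ 0 → ∃ g : GQ, ∀ a : AlgebraicClosure E,
    ((r g : Matrix (Fin 2) (Fin 2) E).map (algebraMap E (AlgebraicClosure E))) *ᵥ v ≠ a • v

/-- the matrix of `r g` over the algebraic closure -/
def bc {E : Type*} [Field E] (g : GL (Fin 2) E) : Matrix (Fin 2) (Fin 2) (AlgebraicClosure E) :=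
  (g : Matrix (Fin 2) (Fin 2) E).map (algebraMap E (AlgebraicClosure E))

lemma bc_mul (g h : GL (Fin 2) E) : bc (g * h) = bc g * bc h := by
  unfold bc
  rw [Units.val_mul, Matrix.map_mul]

lemma bc_one : bc (1 : GL (Fin 2) E) = 1 := by
  unfold bc
  rw [Units.val_one, Matrix.map_one _ (map_zero _) (map_one _)]

/-- absolute irreducibility is invariant under conjugation -/
lemma absIrred_conj {r r' : GQ →* GL (Fin 2) E} {A : GL (Fin 2) E}
    (hA : ∀ g, r g = A * r' g * A⁻¹) (h : AbsIrred r') : AbsIrred r := by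
  intro u hu
  have hu' : bc A⁻¹ *ᵥ u ≠ 0 := by
    intro h0
    apply hu
    have h1 : bc A *ᵥ (bc A⁻¹ *ᵥ u) = u := by
      rw [Matrix.mulVec_mulVec, ← bc_mul, mul_inv_cancel, bc_one, Matrix.one_mulVec]
    rw [← h1, h0, Matrix.mulVec_zero]
  obtain ⟨g, hg⟩ := h _ hu'
  refine ⟨g, fun a ha => hg a ?_⟩
  have h1 : bc (r' g) *ᵥ (bc A⁻¹ *ᵥ u) = bc A⁻¹ *ᵥ (bc (r g) *ᵥ u) := by
    rw [Matrix.mulVec_mulVec, Matrix.mulVec_mulVec, ← bc_mul, ← bc_mul, hA]
    congr 2
    group
  show bc (r' g) *ᵥ (bc A⁻¹ *ᵥ u) = _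
  have h3 : bc (r g) *ᵥ u = a • u := ha
  rw [h1, h3, Matrix.mulVec_smul]

/-- **for `r` induced from `χ`: `r` is absolutely irreducible iff `χ ≠ χ^c`** -/
theorem absIrred_iff (h2 : Module.finrank ℚ K = 2) {χ : GK j →* Eˣ}
    {r : GQ →* GL (Fin 2) E} (hr : IsInd j χ r) {c : GQ} (hc : c ∉ GK j) :
    AbsIrred r ↔ ∃ h : GK j, ext0 j χ (c⁻¹ * h * c) ≠ χ h := by
  obtain ⟨A, hA⟩ := exists_conj j h2 hc hr
  have hcc : c * c ∈ GK j := by
    have hc' : c⁻¹ ∉ GK j := fun h => hc ((GK j).inv_mem_iff.1 h)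
    have := mul_inv_mem j h2 hc hc'
    simpa using this
  have hcc0 : ext0 j χ (c * c) ≠ 0 := by
    rw [ext0_mem j χ hcc]
    exact Units.ne_zero _
  set φ := algebraMap E (AlgebraicClosure E) with hφ
  have hbc : ∀ u : Fin 2 → AlgebraicClosure E, bc (Ind j h2 hc χ c) *ᵥ u =
      ![φ (ext0 j χ (c * c)) * u 1, u 0] := by
    intro u
    unfold bc
    rw [Ind_c j h2 hc χ]
    ext i
    fin_cases i <;> simp [Matrix.mulVec, dotProduct, Fin.sum_univ_two, Matrix.map_apply, hφ]
  have hbh : ∀ (h : GK j) (u : Fin 2 → AlgebraicClosure E), bc (Ind j h2 hc χ h) *ᵥ u =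
      ![φ (χ h) * u 0, φ (ext0 j χ (c⁻¹ * h * c)) * u 1] := by
    intro h u
    unfold bc
    rw [Ind_GK j h2 hc χ h]
    ext i
    fin_cases i <;> simp [Matrix.mulVec, dotProduct, Fin.sum_univ_two, Matrix.map_apply, hφ]
  constructor
  · intro hir
    by_contra hn
    push Not at hn
    have hir' : AbsIrred (Ind j h2 hc χ) := absIrred_conj (A := A⁻¹) (r' := r)
      (fun g => by rw [hA]; group) hir
    obtain ⟨a, ha⟩ := IsAlgClosed.exists_pow_nat_eq (φ (ext0 j χ (c * c))) (n := 2) (by norm_num)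
    obtain ⟨g, hg⟩ := hir' ![a, 1] (by
      intro h0
      have := congrFun h0 1
      simp at this)
    have hg' : ∀ b : AlgebraicClosure E, bc (Ind j h2 hc χ g) *ᵥ ![a, 1] ≠ b • ![a, 1] := hg
    have key : ∀ h : GK j, bc (Ind j h2 hc χ h) *ᵥ ![a, 1] = φ (χ h) • ![a, 1] := by
      intro h
      rw [hbh, hn h]
      ext i
      fin_cases i <;> simp
    by_cases hgK : g ∈ GK j
    · exact hg' _ (key ⟨g, hgK⟩)
    · have h3 : g * c⁻¹ ∈ GK j := mul_inv_mem j h2 hgK hc
      apply hg' (a * φ (χ ⟨_, h3⟩))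
      have h4 : Ind j h2 hc χ g = Ind j h2 hc χ (g * c⁻¹) * Ind j h2 hc χ c := by
        rw [← map_mul, inv_mul_cancel_right]
      have h5 : bc (Ind j h2 hc χ c) *ᵥ ![a, 1] = a • ![a, 1] := by
        rw [hbc, ← ha]
        ext i
        fin_cases i
        · simp [sq]
        · simp
      have h6 := key ⟨_, h3⟩
      rw [h4, bc_mul, ← Matrix.mulVec_mulVec, h5, Matrix.mulVec_smul, h6, smul_smul]
  · rintro ⟨h₀, hne⟩
    apply absIrred_conj hA
    intro u hu
    by_contra hn
    push Not at hn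
    have hn' : ∀ g : GQ, ∃ a, bc (Ind j h2 hc χ g) *ᵥ u = a • u := hn
    obtain ⟨a, ha⟩ := hn' h₀
    obtain ⟨b, hb⟩ := hn' c
    rw [hbh] at ha
    rw [hbc] at hb
    have a0 := congrFun ha 0
    have a1 := congrFun ha 1
    have b0 := congrFun hb 0
    have b1 := congrFun hb 1
    simp only [Matrix.cons_val_zero, Matrix.cons_val_one, Matrix.cons_val_fin_one, Pi.smul_apply,
      smul_eq_mul] at a0 a1 b0 b1
    have hX : φ (ext0 j χ (c * c)) ≠ 0 := (map_ne_zero φ).2 hcc0
    by_cases h0 : u 0 = 0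
    · rw [h0, mul_zero] at b0
      have h1 : u 1 = 0 := (mul_eq_zero.1 b0).resolve_left hX
      apply hu
      ext i
      fin_cases i
      · exact h0
      · exact h1
    · by_cases h1 : u 1 = 0
      · rw [h1, mul_zero] at b1
        exact h0 b1
      · apply hne
        apply φ.injective
        have e0 : φ (χ h₀) = a := mul_right_cancel₀ h0 a0
        have e1 : φ (ext0 j χ (c⁻¹ * h₀ * c)) = a := mul_right_cancel₀ h1 a1
        rw [e0, e1]

end

section top

variable {K : Type*} [Field K] [NumberField K] (j : K →+* Qb) {E : Type*} [Field E]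
  [TopologicalSpace E]

lemma continuous_ext0 {χ : GK j →* Eˣ} (hχ : Continuous χ) : Continuous (ext0 j χ) := by
  rw [continuous_iff_continuousAt]
  intro g
  by_cases hg : g ∈ GK j
  · have h1 : ContinuousOn (ext0 j χ) (GK j : Set GQ) := by
      rw [continuousOn_iff_continuous_domRestrict]
      have h3 : (GK j : Set GQ).domRestrict (ext0 j χ) = fun h : GK j => (χ h : E) := by
        ext h
        exact ext0_mem j χ h.2
      rw [h3]
      exact Units.continuous_val.comp hχ
    exact h1.continuousAt ((isOpen_GK j).mem_nhds hg)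
  · have h1 : ContinuousOn (ext0 j χ) (GK j : Set GQ)ᶜ := by
      have h3 : ContinuousOn (fun _ : GQ => (0 : E)) (GK j : Set GQ)ᶜ := continuousOn_const
      exact h3.congr fun h hh => ext0_not j χ hh
    exact h1.continuousAt ((isClosed_GK j).isOpen_compl.mem_nhds hg)

/-- `Ind χ` is continuous if `χ` is -/
theorem continuous_Ind (h2 : Module.finrank ℚ K = 2) {c : GQ} (hc : c ∉ GK j) {χ : GK j →* Eˣ}
    (hχ : Continuous χ) : Continuous (Ind j h2 hc χ) := by
  have h1 : Continuous (fun g : GQ => indMat j χ c g) := by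
    apply continuous_matrix
    intro i k
    have h0 := continuous_ext0 j hχ
    fin_cases i <;> fin_cases k
    · exact h0
    · exact h0.comp (continuous_id.mul continuous_const)
    · exact h0.comp (continuous_const.mul continuous_id)
    · exact h0.comp ((continuous_const.mul continuous_id).mul continuous_const)
  rw [Units.continuous_iff]
  exact ⟨h1, h1.comp continuous_inv⟩

/-- a representation induced from a continuous character is continuous -/
theorem continuous_of_isInd [IsTopologicalRing E] (h2 : Module.finrank ℚ K = 2) {χ : GK j →* Eˣ}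
    (hχ : Continuous χ) {r : GQ →* GL (Fin 2) E} (hr : IsInd j χ r) : Continuous r := by
  obtain ⟨c, hc⟩ := exists_not_mem j h2
  obtain ⟨A, hA⟩ := exists_conj j h2 hc hr
  have h1 := continuous_Ind j h2 hc hχ
  have h3 : (r : GQ → GL (Fin 2) E) = fun g => A * Ind j h2 hc χ g * A⁻¹ := funext hA
  rw [h3]
  exact (continuous_const.mul h1).mul continuous_const

omit [NumberField K] in
/-- the character of a continuous induced representation is continuous -/
theorem continuous_char_of_isInd [IsTopologicalDivisionRing E] {χ : GK j →* Eˣ}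
    {r : GQ →* GL (Fin 2) E} (hr : IsInd j χ r) (hc : Continuous r) : Continuous χ := by
  obtain ⟨v, hv, c, hc0⟩ := hr
  have hv0 : v ≠ 0 := by
    rintro rfl
    exact hc0 0 (by simp)
  obtain ⟨i, hi⟩ := Function.ne_iff.1 hv0
  have hi' : v i ≠ 0 := hi
  have h1 : ∀ h : GK j, (χ h : E) = ((r h : Matrix (Fin 2) (Fin 2) E) *ᵥ v) i / v i := by
    intro h
    rw [hv h, Pi.smul_apply, smul_eq_mul, mul_div_cancel_right₀ _ hi']
  have h3 : Continuous fun h : GK j => (χ h : E) := by
    simp_rw [h1]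
    apply Continuous.div_const
    have h4 : Continuous fun h : GK j => (r h : Matrix (Fin 2) (Fin 2) E) :=
      Units.continuous_val.comp (hc.comp continuous_subtype_val)
    exact (continuous_apply i).comp (h4.matrix_mulVec continuous_const)
  rw [Units.continuous_iff]
  refine ⟨h3, ?_⟩
  have h5 : (Units.val ∘ fun h : GK j => (χ h)⁻¹) = fun h : GK j => (χ h⁻¹ : E) := by
    ext h
    simp
  have h6 : Continuous fun h : GK j => (χ h⁻¹ : E) := h3.comp continuous_inv
  show Continuous fun h : GK j => ((χ h)⁻¹ : Eˣ).val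
  have h7 : (fun h : GK j => ((χ h)⁻¹ : Eˣ).val) = fun h : GK j => (χ h⁻¹ : E) := by
    ext h
    rw [map_inv]
  rw [h7]
  exact h6

end top

section norm

variable {G : Type*} [Group G] [TopologicalSpace G] [CompactSpace G] {E : Type*} [NormedField E]

/-- a continuous character of a compact group has values of absolute value one -/
theorem norm_char {χ : G →* Eˣ} (hχ : Continuous χ) (g : G) : ‖(χ g : E)‖ = 1 := by
  have hb : ∃ C : ℝ, ∀ g : G, ‖(χ g : E)‖ ≤ C := by
    have h1 : Continuous fun g : G => ‖(χ g : E)‖ := (Units.continuous_val.comp hχ).norm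
    obtain ⟨C, hC⟩ := (isCompact_range h1).bddAbove
    exact ⟨C, fun g => hC ⟨g, rfl⟩⟩
  obtain ⟨C, hC⟩ := hb
  have hle : ∀ g : G, ‖(χ g : E)‖ ≤ 1 := by
    intro g
    by_contra hgt
    push Not at hgt
    obtain ⟨n, hn⟩ := pow_unbounded_of_one_lt C hgt
    have := hC (g ^ n)
    rw [map_pow, Units.val_pow_eq_pow_val, norm_pow] at this
    linarith
  apply le_antisymm (hle g)
  have h3 := hle g⁻¹
  rw [map_inv, Units.val_inv_eq_inv_val, norm_inv] at h3
  have h4 : 0 < ‖(χ g : E)‖ := norm_pos_iff.2 (Units.ne_zero _)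
  rw [inv_le_one_iff₀] at h3
  rcases h3 with h | h
  · linarith
  · exact h

/-- the character of a continuous induced representation has values of absolute value one -/
theorem norm_char_of_isInd {K : Type*} [Field K] [NumberField K] (j : K →+* Qb) {χ : GK j →* Eˣ}
    {r : GQ →* GL (Fin 2) E} (hr : IsInd j χ r) (hc : Continuous r) (h : GK j) :
    ‖(χ h : E)‖ = 1 :=
  norm_char (continuous_char_of_isInd j hr hc) h

end norm

end Vale.Agent.P022.H916
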