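import Vale.Agent.P022.H916.Fld
import Vale.Agent.P022.H567.Cft

/-! # P022, CFT: the Galois dictionary, part 2 (helper916): characters, complex conjugations -/

open NumberField Matrix
open scoped Pointwise

noncomputable section

namespace Vale.Agent.P022.H916

section

variable {K : Type*} [Field K] [NumberField K] (j : K →+* Qb) {A : Type*} [CommGroup A]

/-- the kernel of `φ` as a subgroup of `G_ℚ` -/
def kerQ (φ : GK j →* A) : Subgroup GQ := φ.ker.map (GK j).subtype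

omit [NumberField K] in
lemma mem_kerQ (φ : GK j →* A) (g : GK j) : (g : GQ) ∈ kerQ j φ ↔ φ g = 1 := by
  unfold kerQ
  rw [Subgroup.mem_map]
  constructor
  · rintro ⟨h, hh, he⟩
    have : h = g := Subtype.ext he
    rw [← this]
    exact hh
  · intro h
    exact ⟨g, h, rfl⟩

omit [NumberField K] in
lemma kerQ_le (φ : GK j →* A) : kerQ j φ ≤ GK j := by
  rintro _ ⟨h, _, rfl⟩
  exact h.2

omit [NumberField K] in
lemma kerQ_normal (φ : GK j →* A) : ∀ g ∈ GK j, ∀ u ∈ kerQ j φ, g * u * g⁻¹ ∈ kerQ j φ := by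
  rintro g hg _ ⟨u, hu, rfl⟩
  have h1 : φ ((⟨g, hg⟩ : GK j) * u * (⟨g, hg⟩ : GK j)⁻¹) = 1 := by
    have hu' : φ u = 1 := hu
    rw [map_mul, map_mul, hu', mul_one, map_inv, mul_inv_cancel]
  exact (mem_kerQ j φ _).2 h1

lemma isOpen_kerQ {φ : GK j →* A} (h : IsOpen (φ.ker : Set (GK j))) :
    IsOpen (kerQ j φ : Set GQ) := by
  have h1 : (kerQ j φ : Set GQ) = Subtype.val '' (φ.ker : Set (GK j)) := rfl
  rw [h1]
  exact (isOpen_GK j).isOpenEmbedding_subtypeVal.isOpenMap _ h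

/-- **characters of `G_K` of finite order come from cyclic extensions `L / K`** -/
theorem exists_cyc [IsCyclic A] {φ : GK j →* A} (h : IsOpen (φ.ker : Set (GK j))) :
    ∃ (L : Type) (_ : Field L) (_ : NumberField L) (_ : Algebra K L) (_ : IsGalois K L)
      (jL : L →+* Qb) (ρ : GK j →* (L ≃ₐ[K] L)), Dict j jL ρ ∧ (∀ g : GK j, ρ g = 1 ↔ φ g = 1) ∧
        IsCyclic (L ≃ₐ[K] L) := by
  obtain ⟨L, i1, i2, i3, i4, jL, ρ, hD, hU, hker⟩ := exists_fld j (kerQ j φ) (isOpen_kerQ j h)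
    (kerQ_le j φ) (kerQ_normal j φ)
  have hk : ∀ g : GK j, ρ g = 1 ↔ φ g = 1 := fun g => (hker g).trans (mem_kerQ j φ g)
  refine ⟨L, i1, i2, i3, i4, jL, ρ, hD, hk, ?_⟩
  have hkk : ρ.ker = φ.ker := by
    ext g
    exact hk g
  let e1 : (GK j ⧸ ρ.ker) ≃* (L ≃ₐ[K] L) := QuotientGroup.quotientKerEquivOfSurjective ρ hD.surj
  let e2 : (GK j ⧸ ρ.ker) ≃* φ.range :=
    (QuotientGroup.quotientMulEquivOfEq hkk).trans (QuotientGroup.quotientKerEquivRange φ)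
  have : IsCyclic φ.range := inferInstance
  exact isCyclic_of_surjective (e2.symm.trans e1) (e2.symm.trans e1).surjective

/-- in the letters of `H567/Cft.lean`: `σ` generates `Gal(L/K)`, and the elements of `G_K` above
`σ ^ i` are those with `φ g = φ g₀ ^ i` -/
theorem exists_Cyc [IsCyclic A] {K : Type} [Field K] [NumberField K] (j : K →+* Qb) {φ : GK j →* A}
    (h : IsOpen (φ.ker : Set (GK j))) :
    ∃ (L : Type) (_ : Field L) (_ : NumberField L) (_ : Algebra K L) (_ : IsGalois K L)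
      (jL : L →+* Qb) (ρ : GK j →* (L ≃ₐ[K] L)) (n : ℕ) (σ : L ≃ₐ[K] L) (g₀ : GK j),
      Dict j jL ρ ∧ (∀ g : GK j, ρ g = 1 ↔ φ g = 1) ∧ C.Cyc K n σ ∧ ρ g₀ = σ ∧
        ∀ (g : GK j) (i : ℕ), ρ g = σ ^ i ↔ φ g = φ g₀ ^ i := by
  obtain ⟨L, i1, i2, i3, i4, jL, ρ, hD, hk, hcyc⟩ := exists_cyc j h
  obtain ⟨σ, hσ⟩ := hcyc.exists_generator
  obtain ⟨g₀, hg₀⟩ := hD.surj σ
  refine ⟨L, i1, i2, i3, i4, jL, ρ, orderOf σ, σ, g₀, hD, hk, ⟨?_, rfl, ?_⟩, hg₀, ?_⟩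
  · exact orderOf_pos σ
  · rw [orderOf_eq_card_of_forall_mem_zpowers hσ, ← IsGalois.card_aut_eq_finrank K L]
  · intro g i
    have h1 := hk (g * (g₀ ^ i)⁻¹)
    rw [map_mul, map_inv, map_pow, hg₀, map_mul, map_inv, map_pow, mul_inv_eq_one,
      mul_inv_eq_one] at h1
    exact h1

end

section unr

variable {K L : Type*} [Field K] [NumberField K] [Field L] [NumberField L] [Algebra K L]
  {j : K →+* Qb} {jL : L →+* Qb} {ρ : GK j →* (L ≃ₐ[K] L)}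

omit [NumberField K] in
/-- **`L / K` has trivial inertia groups above `ℓ`** if `G_K`'s inertia groups above `ℓ` are in the
kernel of restriction to `L` -/
theorem Dict.inertia_trivial (D : Dict j jL ρ) {ℓ : ℕ}
    (h : ∀ P : Ideal (𝓞 Qb), P.IsPrime → (ℓ : 𝓞 Qb) ∈ P → ∀ g : GK j,
      (∀ x : 𝓞 Qb, (g : GQ) • x - x ∈ P) → ρ g = 1)
    {𝔮 : Ideal (𝓞 L)} (h𝔮 : 𝔮.IsPrime) (hl : (ℓ : 𝓞 L) ∈ 𝔮) {τ : L ≃ₐ[K] L}
    (hτ : ∀ y : 𝓞 L, τ • y - y ∈ 𝔮) : τ = 1 := by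
  obtain ⟨P, hP, rfl⟩ := exists_above jL 𝔮 h𝔮
  have hlP : (ℓ : 𝓞 Qb) ∈ P := by
    have h1 : RingOfIntegers.mapRingHom jL (ℓ : 𝓞 L) ∈ P := hl
    rwa [map_natCast] at h1
  exact D.inertia_eq_bot hP (h P hP hlP) hτ

omit [NumberField K] in
/-- the same in the letters of `H567/Cft.lean` -/
theorem Dict.unr {K L : Type} [Field K] [Field L] [NumberField L] [Algebra K L]
    {j : K →+* Qb} {jL : L →+* Qb} {ρ : GK j →* (L ≃ₐ[K] L)} (D : Dict j jL ρ) {ℓ : ℕ}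
    (h : ∀ P : Ideal (𝓞 Qb), P.IsPrime → (ℓ : 𝓞 Qb) ∈ P → ∀ g : GK j,
      (∀ x : 𝓞 Qb, (g : GQ) • x - x ∈ P) → ρ g = 1)
    {𝔮 : Ideal (𝓞 L)} (h𝔮 : 𝔮.IsPrime) (hl : (ℓ : 𝓞 L) ∈ 𝔮) (σ : L ≃ₐ[K] L) : C.Unr σ 𝔮 :=
  fun _ hi => D.inertia_trivial h h𝔮 hl hi

omit [NumberField K] in
/-- Frobenius elements at the primes of `L` above `ℓ` come from Frobenius elements of `G_K` -/
theorem Dict.frob_lift' [NumberField K] (D : Dict j jL ρ) {ℓ : ℕ} (hℓ : ℓ.Prime)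
    {𝔮 : Ideal (𝓞 L)} (h𝔮 : 𝔮.IsPrime) (hl : (ℓ : 𝓞 L) ∈ 𝔮) {τ : L ≃ₐ[K] L}
    (hτ : ∀ y : 𝓞 L,
      τ • y - y ^ Ideal.absNorm (𝔮.comap (algebraMap (𝓞 K) (𝓞 L))) ∈ 𝔮) :
    ∃ P : Ideal (𝓞 Qb), P.IsPrime ∧ (ℓ : 𝓞 Qb) ∈ P ∧ below jL P = 𝔮 ∧
      below j P = 𝔮.comap (algebraMap (𝓞 K) (𝓞 L)) ∧
      ∃ g : GK j, ρ g = τ ∧ ∀ x : 𝓞 Qb, (g : GQ) • x - x ^ Ideal.absNorm (below j P) ∈ P := by
  obtain ⟨P, hP, rfl⟩ := exists_above jL 𝔮 h𝔮
  have hlP : (ℓ : 𝓞 Qb) ∈ P := by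
    have h1 : RingOfIntegers.mapRingHom jL (ℓ : 𝓞 L) ∈ P := hl
    rwa [map_natCast] at h1
  have hb := (D.below_comap P)
  refine ⟨P, hP, hlP, rfl, hb.symm, ?_⟩
  apply D.frob_lift hP hℓ hlP
  rw [← hb]
  exact hτ

end unr

section conj

/-- every embedding of a subfield extends to `ℚ̄` -/
lemma exists_extend {L : Type*} [Field L] [NumberField L] (jL : L →+* Qb) (Φ : L →+* ℂ) :
    ∃ ι : Qb →+* ℂ, ∀ x, ι (jL x) = Φ x := by
  let _ : Algebra L Qb := jL.toAlgebra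
  let _ : Algebra L ℂ := Φ.toAlgebra
  have : IsScalarTower ℚ L Qb := IsScalarTower.of_algebraMap_eq' (RingHom.ext_rat _ _)
  have : Algebra.IsAlgebraic L Qb := Algebra.IsAlgebraic.tower_top (K := ℚ) L
  let f : Qb →ₐ[L] ℂ := IsAlgClosed.lift
  exact ⟨f.toRingHom, fun x => f.commutes x⟩

/-- the complex conjugation attached to an embedding `ℚ̄ → ℂ` -/
lemma exists_conj_elt (ι : Qb →+* ℂ) : ∃ c : GQ, ∀ x, ι (c x) = starRingEnd ℂ (ι x) := by
  let _ : Algebra Qb ℂ := ι.toAlgebra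
  have hr : ∀ x : Qb, ∃ y : Qb, ι y = starRingEnd ℂ (ι x) := by
    intro x
    have hx : IsAlgebraic ℚ x := isAlg_Qb.isAlgebraic x
    obtain ⟨p, hp0, hp⟩ := hx
    have h1 : Polynomial.aeval (starRingEnd ℂ (ι x)) p = 0 := by
      have h2 : Polynomial.aeval (ι x) p = 0 := by
        have := congrArg ι hp
        rw [map_zero] at this
        rw [← this]
        exact (Polynomial.aeval_algHom_apply (ι.toRatAlgHom) x p)
      have h3 := Polynomial.aeval_algHom_apply ((starRingEnd ℂ).toRatAlgHom) (ι x) p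
      rw [h2, map_zero] at h3
      exact h3
    have hsp : (p.map (algebraMap ℚ Qb)).Splits := IsAlgClosed.splits _
    have h4 : ((p.map (algebraMap ℚ Qb)).map ι).roots = (p.map (algebraMap ℚ Qb)).roots.map ι :=
      hsp.roots_map ι
    have h5 : starRingEnd ℂ (ι x) ∈ ((p.map (algebraMap ℚ Qb)).map ι).roots := by
      rw [Polynomial.mem_roots']
      refine ⟨?_, ?_⟩
      · rw [Polynomial.map_ne_zero_iff ι.injective, Polynomial.map_ne_zero_iff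
          (algebraMap ℚ Qb).injective]
        exact hp0
      · rw [Polynomial.IsRoot.def, Polynomial.map_map, Polynomial.eval_map]
        rw [RingHom.ext_rat (ι.comp (algebraMap ℚ Qb)) (algebraMap ℚ ℂ)]
        exact h1
    rw [h4, Multiset.mem_map] at h5
    obtain ⟨y, _, hy⟩ := h5
    exact ⟨y, hy⟩
  choose f hf using hr
  have hmul : ∀ x y, f (x * y) = f x * f y := fun x y => ι.injective (by
    rw [map_mul, hf, hf, hf, map_mul, map_mul])
  have hadd : ∀ x y, f (x + y) = f x + f y := fun x y => ι.injective (by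
    rw [map_add, hf, hf, hf, map_add, map_add])
  have hinv : ∀ x, f (f x) = x := fun x => ι.injective (by
    rw [hf, hf, Complex.conj_conj])
  let e : Qb ≃+* Qb :=
    { toFun := f, invFun := f, left_inv := hinv, right_inv := hinv, map_mul' := hmul,
      map_add' := hadd }
  exact ⟨AlgEquiv.ofRingEquiv (f := e) (fun q => by
    have : (e : Qb →+* Qb).comp (algebraMap ℚ Qb) = algebraMap ℚ Qb := RingHom.ext_rat _ _
    exact DFunLike.congr_fun this q), hf⟩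

variable {K L : Type*} [Field K] [Field L] [NumberField L] [Algebra K L]
  {j : K →+* Qb} {jL : L →+* Qb} {ρ : GK j →* (L ≃ₐ[K] L)}

/-- a conjugation of `ℚ̄` which is trivial on the real field `K` -/
lemma mem_GK_of_real {ι : Qb →+* ℂ} {c : GQ} (hc : ∀ x, ι (c x) = starRingEnd ℂ (ι x))
    (h : ∀ x : K, starRingEnd ℂ (ι (j x)) = ι (j x)) : c ∈ GK j := by
  intro x
  apply ι.injective
  rw [hc, h]

omit [NumberField L] in
lemma Dict.conj_push (D : Dict j jL ρ) {ι : Qb →+* ℂ} {c : GK j}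
    (hc : ∀ x, ι ((c : GQ) x) = starRingEnd ℂ (ι x)) (x : L) :
    ι (jL (ρ c x)) = starRingEnd ℂ (ι (jL x)) := by
  rw [← D.act, hc]

/-- **every complex conjugation of `L` over a real place of `K` comes from one of `G_K`** -/
theorem Dict.conj_lift (D : Dict j jL ρ) {Φ : L →+* ℂ} {g : L ≃ₐ[K] L}
    (hg : ∀ x, Φ (g x) = starRingEnd ℂ (Φ x)) :
    ∃ (ι : Qb →+* ℂ) (c : GK j), (∀ x, ι (jL x) = Φ x) ∧
      (∀ x, ι ((c : GQ) x) = starRingEnd ℂ (ι x)) ∧ ρ c = g := by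
  obtain ⟨ι, hι⟩ := exists_extend jL Φ
  obtain ⟨c, hc⟩ := exists_conj_elt ι
  have hreal : ∀ x : K, starRingEnd ℂ (ι (j x)) = ι (j x) := by
    intro x
    rw [← D.comp, hι, ← hg, AlgEquiv.commutes]
  have hcK : c ∈ GK j := mem_GK_of_real hc hreal
  refine ⟨ι, ⟨c, hcK⟩, hι, hc, ?_⟩
  apply AlgEquiv.ext
  intro x
  apply Φ.injective
  rw [hg, ← hι, ← hι]
  exact D.conj_push (c := ⟨c, hcK⟩) hc x

end conj

end Vale.Agent.P022.H916
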