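import Mathlib

/-!
# The Galois side of the problem (helper916)

Literal definitions: the absolute Galois group of `ℚ`, Frobenius elements and inertia groups at the
primes of the ring of all algebraic integers, complex conjugations, two-dimensional continuous
representations.
-/

namespace Vale.Agent.P022.H916

open NumberField

/-- The absolute Galois group of `ℚ` (with Mathlib's Krull topology). -/
abbrev GQ : Type := AlgebraicClosure ℚ ≃ₐ[ℚ] AlgebraicClosure ℚ

/-- The ring of all algebraic integers. -/
abbrev Zbar : Type := 𝓞 (AlgebraicClosure ℚ)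

/-- `σ` is a Frobenius element at the rational prime `ℓ`: for some prime `Q` of the ring of all
algebraic integers above `ℓ`, `σ x ≡ x ^ ℓ mod Q` for all algebraic integers `x`. -/
def IsFrob (ℓ : ℕ) (σ : GQ) : Prop :=
  ∃ Q : Ideal Zbar, Q.IsPrime ∧ (ℓ : Zbar) ∈ Q ∧ ∀ x : Zbar, σ • x - x ^ ℓ ∈ Q

/-- `r` is unramified at `ℓ`: trivial on the inertia group of every prime above `ℓ`. -/
def UnramifiedAt {H : Type*} [Group H] (r : GQ →* H) (ℓ : ℕ) : Prop :=
  ∀ Q : Ideal Zbar, Q.IsPrime → (ℓ : Zbar) ∈ Q →
    ∀ σ : GQ, (∀ x : Zbar, σ • x - x ∈ Q) → r σ = 1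

/-- `c` is a complex conjugation: the restriction of complex conjugation along an embedding of the
algebraic closure of `ℚ` in `ℂ`. -/
def IsComplexConj (c : GQ) : Prop :=
  ∃ ι : AlgebraicClosure ℚ →+* ℂ, ∀ x, ι (c x) = star (ι x)

/-- `r` is odd: `det r(c) = -1` for a complex conjugation `c`. -/
def IsOdd {E : Type*} [Field E] (r : GQ →* GL (Fin 2) E) : Prop :=
  ∃ c, IsComplexConj c ∧ (r c : Matrix (Fin 2) (Fin 2) E).det = -1

/-- `r` is absolutely irreducible: over no extension field is there a line stable under `r`. -/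
def IsAbsIrred {E : Type*} [Field E] (r : GQ →* GL (Fin 2) E) : Prop :=
  ∀ v : Fin 2 → AlgebraicClosure E, v ≠ 0 →
    ∃ σ : GQ, ∀ a : AlgebraicClosure E,
      ((r σ : Matrix (Fin 2) (Fin 2) E).map (algebraMap E (AlgebraicClosure E))).mulVec v ≠ a • v

/-- The members of `G_K`, `K` a subfield of the algebraic closure, which are Frobenius elements at
the prime `Q` of the ring of all algebraic integers, for a residue field with `q` elements. -/
def IsFrobAt (Q : Ideal Zbar) (q : ℕ) (σ : GQ) : Prop := ∀ x : Zbar, σ • x - x ^ q ∈ Q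

/-- The representation `r` is induced from the character `χ` of `G_K` (`K` quadratic): a vector `v`
spans a line on which `G_K` acts by `χ`, and `v`, `r(c) v` is a basis for `c ∉ G_K`. -/
def IsInduced {E : Type*} [Field E] (K : IntermediateField ℚ (AlgebraicClosure ℚ))
    (χ : K.fixingSubgroup →* Eˣ) (r : GQ →* GL (Fin 2) E) : Prop :=
  ∃ v : Fin 2 → E, (∀ h : K.fixingSubgroup,
      (r h : Matrix (Fin 2) (Fin 2) E).mulVec v = (χ h : E) • v) ∧
    ∀ c : GQ, c ∉ K.fixingSubgroup →
      LinearIndependent E ![v, (r c : Matrix (Fin 2) (Fin 2) E).mulVec v]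

end Vale.Agent.P022.H916
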