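import Vale.Agent.P022.H916.PotDef
import Vale.Agent.P022.H565.StG

/-!
P022: Clifford theory. An absolutely irreducible `r` which becomes reducible on some open
subgroup and whose projective image is infinite is dihedral.
-/

open Matrix

noncomputable section

namespace Vale.Agent.P022.H916

section Cliff

variable {G F : Type*} [Group G] [Field F]

/-- a vector which is not a multiple of `w ≠ 0` forms a basis with `w` -/
lemma det_ne {w w' : Fin 2 → F} (hw : w ≠ 0) (h : ∀ a : F, w' ≠ a • w) :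
    w 0 * w' 1 - w 1 * w' 0 ≠ 0 := by
  intro h0
  by_cases h1 : w 0 = 0
  · have h2 : w 1 ≠ 0 := by
      intro h2
      exact hw (by ext i; fin_cases i <;> simp [h1, h2])
    apply h (w' 1 / w 1)
    have h3 : w' 0 = 0 := by
      have : w 1 * w' 0 = 0 := by rw [h1] at h0; linear_combination -h0
      exact (mul_eq_zero.1 this).resolve_left h2
    ext i
    fin_cases i
    · simp [h1, h3]
    · simp [h2]
  · apply h (w' 0 / w 0)
    ext i
    fin_cases i
    · simp [h1]
    · simp only [Fin.mk_one, Fin.isValue, Pi.smul_apply, smul_eq_mul]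
      field_simp
      linear_combination h0

lemma exists_coord {w w' : Fin 2 → F} (hD : w 0 * w' 1 - w 1 * w' 0 ≠ 0) (v : Fin 2 → F) :
    ∃ a b : F, v = a • w + b • w' := by
  refine ⟨(v 0 * w' 1 - v 1 * w' 0) / (w 0 * w' 1 - w 1 * w' 0),
    (w 0 * v 1 - w 1 * v 0) / (w 0 * w' 1 - w 1 * w' 0), ?_⟩
  ext i
  fin_cases i
  · simp only [Fin.zero_eta, Fin.isValue, Pi.add_apply, Pi.smul_apply, smul_eq_mul]
    rw [div_mul_eq_mul_div, div_mul_eq_mul_div, ← add_div, eq_div_iff hD]
    ring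
  · simp only [Fin.mk_one, Fin.isValue, Pi.add_apply, Pi.smul_apply, smul_eq_mul]
    rw [div_mul_eq_mul_div, div_mul_eq_mul_div, ← add_div, eq_div_iff hD]
    ring

lemma coord_zero {w w' : Fin 2 → F} (hD : w 0 * w' 1 - w 1 * w' 0 ≠ 0) {a b : F}
    (h : a • w + b • w' = 0) : a = 0 ∧ b = 0 := by
  have h0 := congrFun h 0
  have h1 := congrFun h 1
  simp only [Fin.isValue, Pi.add_apply, Pi.smul_apply, smul_eq_mul, Pi.zero_apply] at h0 h1
  constructor
  · have : a * (w 0 * w' 1 - w 1 * w' 0) = 0 := by linear_combination w' 1 * h0 - w' 0 * h1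
    exact (mul_eq_zero.1 this).resolve_right hD
  · have : b * (w 0 * w' 1 - w 1 * w' 0) = 0 := by linear_combination w 0 * h1 - w 1 * h0
    exact (mul_eq_zero.1 this).resolve_right hD

lemma mat_ext {w w' : Fin 2 → F} (hD : w 0 * w' 1 - w 1 * w' 0 ≠ 0)
    {A B : Matrix (Fin 2) (Fin 2) F} (h : A *ᵥ w = B *ᵥ w) (h' : A *ᵥ w' = B *ᵥ w') : A = B := by
  apply Matrix.mulVec_injective
  funext v
  obtain ⟨a, b, rfl⟩ := exists_coord hD v
  rw [mulVec_add, mulVec_add, mulVec_smul, mulVec_smul, mulVec_smul, mulVec_smul, h, h']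

/-- **Clifford**: if a normal subgroup `N` which does not act by scalars has a stable line, and
this line is not stable under `G`, then `G` has a subgroup of index two, containing `N`, on which
the representation is commutative -/
theorem clifford (R : G →* GL (Fin 2) F) (N : Subgroup G) [hNn : N.Normal] (w : Fin 2 → F)
    (hw : w ≠ 0) (hN : ∀ g ∈ N, ∃ a : F, (R g : Matrix (Fin 2) (Fin 2) F) *ᵥ w = a • w)
    (hirr : ∃ c : G, ∀ a : F, (R c : Matrix (Fin 2) (Fin 2) F) *ᵥ w ≠ a • w)
    (hns : ∃ n ∈ N, ∀ a : F, (R n : Matrix (Fin 2) (Fin 2) F) ≠ a • 1) :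
    ∃ H : Subgroup G, N ≤ H ∧ H.index = 2 ∧ ∀ g ∈ H, ∀ h ∈ H, R g * R h = R h * R g := by
  classical
  set M : G → Matrix (Fin 2) (Fin 2) F := fun g => (R g : Matrix (Fin 2) (Fin 2) F) with hM
  have hmul : ∀ g h v, M (g * h) *ᵥ v = M g *ᵥ (M h *ᵥ v) := by
    intro g h v
    rw [mulVec_mulVec]
    simp only [hM, map_mul, Units.val_mul]
  have hone : ∀ v, M 1 *ᵥ v = v := by
    intro v
    simp only [hM, map_one, Units.val_one, one_mulVec]
  have hinv : ∀ g v, M g⁻¹ *ᵥ (M g *ᵥ v) = v := by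
    intro g v
    rw [← hmul, inv_mul_cancel, hone]
  obtain ⟨c, hc⟩ := hirr
  set w' : Fin 2 → F := M c *ᵥ w with hw'
  have hw'0 : w' ≠ 0 := by
    intro h
    exact hc 0 (by rw [zero_smul]; exact h)
  have hD := det_ne hw hc
  -- stable vectors
  have hst : ∀ (g : G) (v : Fin 2 → F), (∀ n ∈ N, ∃ a : F, M n *ᵥ v = a • v) →
      ∀ n ∈ N, ∃ a : F, M n *ᵥ (M g *ᵥ v) = a • (M g *ᵥ v) := by
    intro g v hv n hn
    obtain ⟨a, ha⟩ := hv (g⁻¹ * n * g) (by
      have := hNn.conj_mem n hn g⁻¹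
      rwa [inv_inv] at this)
    refine ⟨a, ?_⟩
    rw [← mulVec_smul, ← ha, ← hmul, ← hmul]
    congr 2
    group
  obtain ⟨n, hn, hsc⟩ := hns
  obtain ⟨α, hα⟩ := hN n hn
  obtain ⟨β, hβ⟩ := hst c w hN n hn
  have hαβ : α ≠ β := by
    rintro rfl
    apply hsc α
    apply mat_ext hD
    · rw [smul_mulVec, one_mulVec]; exact hα
    · rw [smul_mulVec, one_mulVec]; exact hβ
  -- the only stable lines
  have hkey : ∀ v : Fin 2 → F, (∀ n ∈ N, ∃ a : F, M n *ᵥ v = a • v) →
      (∃ a : F, v = a • w) ∨ ∃ a : F, v = a • w' := by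
    intro v hv
    obtain ⟨γ, hγ⟩ := hv n hn
    obtain ⟨a, b, hab⟩ := exists_coord hD v
    have h1 : (a * (α - γ)) • w + (b * (β - γ)) • w' = 0 := by
      have h2 : M n *ᵥ v = (a * α) • w + (b * β) • w' := by
        rw [hab, mulVec_add, mulVec_smul, mulVec_smul, mul_smul, mul_smul]
        congr 2
      rw [h2, hab] at hγ
      rw [smul_add, smul_smul, smul_smul] at hγ
      rw [mul_sub, mul_sub, sub_smul, sub_smul, mul_comm a γ, mul_comm b γ]
      have h3 := sub_eq_zero.2 hγ
      rw [← h3]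
      abel
    obtain ⟨h2, h3⟩ := coord_zero hD h1
    rcases mul_eq_zero.1 h2 with h4 | h4
    · right
      exact ⟨b, by rw [hab, h4, zero_smul, zero_add]⟩
    · rcases mul_eq_zero.1 h3 with h5 | h5
      · left
        exact ⟨a, by rw [hab, h5, zero_smul, add_zero]⟩
      · exact absurd (by linear_combination h4 - h5) hαβ
  have hNw' : ∀ n ∈ N, ∃ a : F, M n *ᵥ w' = a • w' := hst c w hN
  -- the stabilizer of the line of `w`
  let H : Subgroup G :=
    { carrier := {g | ∃ a : F, M g *ᵥ w = a • w}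
      mul_mem' := by
        rintro g h ⟨a, ha⟩ ⟨b, hb⟩
        exact ⟨b * a, by rw [hmul, hb, mulVec_smul, ha, mul_smul]⟩
      one_mem' := ⟨1, by rw [hone, one_smul]⟩
      inv_mem' := by
        rintro g ⟨a, ha⟩
        have ha0 : a ≠ 0 := by
          rintro rfl
          apply hw
          rw [zero_smul] at ha
          rw [← hinv g w, ha, mulVec_zero]
        refine ⟨a⁻¹, ?_⟩
        have h1 := hinv g w
        rw [ha, mulVec_smul] at h1
        rw [← h1, smul_smul, inv_mul_cancel₀ ha0, one_smul, h1] }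
  have hH : ∀ g, g ∈ H ↔ ∃ a : F, M g *ᵥ w = a • w := fun g => Iff.rfl
  -- on `H` the line of `w'` is stable
  have hHw' : ∀ g ∈ H, ∃ a : F, M g *ᵥ w' = a • w' := by
    intro g hg
    obtain ⟨a, ha⟩ := hg
    have ha0 : a ≠ 0 := by
      rintro rfl
      apply hw
      rw [zero_smul] at ha
      rw [← hinv g w, ha, mulVec_zero]
    rcases hkey _ (hst g w' hNw') with ⟨b, hb⟩ | h
    · exfalso
      have h1 : w' = (b * a⁻¹) • w := by
        have h2 := hinv g w
        rw [ha, mulVec_smul] at h2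
        have h3 : M g⁻¹ *ᵥ w = a⁻¹ • w := by
          rw [← inv_smul_smul₀ ha0 (M g⁻¹ *ᵥ w), h2]
        rw [← hinv g w', hb, mulVec_smul, h3, mul_smul]
      exact hc _ h1
    · exact h
  refine ⟨H, fun g hg => hN g hg, ?_, ?_⟩
  · rw [Subgroup.index_eq_two_iff_exists_notMem_and]
    refine ⟨c, fun ⟨a, ha⟩ => hc a ha, fun b => ?_⟩
    by_cases hb : b ∈ H
    · exact Or.inr hb
    · left
      -- `M b w` is on the line of `w'`
      have h1 : ∃ y : F, M b *ᵥ w = y • w' := by
        rcases hkey _ (hst b w hN) with h | h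
        · exact absurd h hb
        · exact h
      obtain ⟨y, hy⟩ := h1
      rw [hH, hmul]
      rcases hkey _ (hst b w' hNw') with h | ⟨z, hz⟩
      · exact h
      · exfalso
        -- both on the line of `w'`
        have h2 : z • (M b *ᵥ w) = y • (M b *ᵥ w') := by
          rw [hy, hz, smul_smul, smul_smul, mul_comm]
        have h3 : z • w = y • w' := by
          have := congrArg (fun v => M b⁻¹ *ᵥ v) h2
          simp only [mulVec_smul, hinv] at this
          exact this
        have h4 : z • w + (-y) • w' = 0 := by rw [h3, neg_smul, add_neg_cancel]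
        obtain ⟨-, h5⟩ := coord_zero hD h4
        rw [neg_eq_zero] at h5
        apply hw
        rw [← hinv b w, hy, h5, zero_smul, mulVec_zero]
  · intro g hg h hh
    obtain ⟨a, ha⟩ := (hH g).1 hg
    obtain ⟨a', ha'⟩ := hHw' g hg
    obtain ⟨b, hb⟩ := (hH h).1 hh
    obtain ⟨b', hb'⟩ := hHw' h hh
    apply Units.ext
    rw [Units.val_mul, Units.val_mul]
    apply mat_ext hD
    · rw [← mulVec_mulVec, ← mulVec_mulVec]
      change M g *ᵥ (M h *ᵥ w) = M h *ᵥ (M g *ᵥ w)
      rw [hb, ha, mulVec_smul, mulVec_smul, ha, hb, smul_smul, smul_smul, mul_comm]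
    · rw [← mulVec_mulVec, ← mulVec_mulVec]
      change M g *ᵥ (M h *ᵥ w') = M h *ᵥ (M g *ᵥ w')
      rw [hb', ha', mulVec_smul, mulVec_smul, ha', hb', smul_smul, smul_smul, mul_comm]

end Cliff

/-- **an absolutely irreducible `r` which becomes reducible on some open subgroup and whose
projective image is infinite is dihedral** -/
theorem dihedral_of_potRed {E : Type} [Field E]
    (r : (AlgebraicClosure ℚ ≃ₐ[ℚ] AlgebraicClosure ℚ) →* GL (Fin 2) E)
    (hi : St.AbsIrr r) (hp : St.PotRed r) (hs : St.InfProj r) : St.Dihedral r := by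
  obtain ⟨U, hU, w, hw, hUw⟩ := hp
  have h0 : Algebra.IsAlgebraic ℚ (AlgebraicClosure ℚ) := AlgebraicClosure.isAlgebraic ℚ
  have h0' : IsAlgClosure ℚ (AlgebraicClosure ℚ) := ⟨inferInstance, inferInstance⟩
  have : IsGalois ℚ (AlgebraicClosure ℚ) := IsAlgClosure.isGalois ℚ _
  obtain ⟨N, hN⟩ := ProfiniteGrp.exist_openNormalSubgroup_sub_open_nhds_of_one hU U.one_mem
  let R : (AlgebraicClosure ℚ ≃ₐ[ℚ] AlgebraicClosure ℚ) →* GL (Fin 2) (AlgebraicClosure E) :=
    (Matrix.GeneralLinearGroup.map (algebraMap E (AlgebraicClosure E))).comp r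
  have hR : ∀ g, (R g : Matrix (Fin 2) (Fin 2) (AlgebraicClosure E)) =
      (r g : Matrix (Fin 2) (Fin 2) E).map (algebraMap E (AlgebraicClosure E)) := fun _ => rfl
  have hNo : IsOpen ((N.toSubgroup : Subgroup _) :
      Set (AlgebraicClosure ℚ ≃ₐ[ℚ] AlgebraicClosure ℚ)) := N.isOpen'
  obtain ⟨n, hn, hsc⟩ := hs N.toSubgroup hNo
  have hinj : Function.Injective (algebraMap E (AlgebraicClosure E)) :=
    (algebraMap E (AlgebraicClosure E)).injective
  obtain ⟨H, hNH, hH2, hHc⟩ := clifford R N.toSubgroup w hw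
    (fun g hg => by rw [hR]; exact hUw g (hN hg))
    (by
      obtain ⟨c, hc⟩ := hi w hw
      exact ⟨c, fun a => by rw [hR]; exact hc a⟩)
    ⟨n, hn, fun a ha => by
      rw [hR] at ha
      apply hsc ((r n : Matrix (Fin 2) (Fin 2) E) 0 0)
      have h00 := congrFun (congrFun ha 0) 0
      have h01 := congrFun (congrFun ha 0) 1
      have h10 := congrFun (congrFun ha 1) 0
      have h11 := congrFun (congrFun ha 1) 1
      simp only [Matrix.map_apply, Matrix.smul_apply, Matrix.one_apply_eq, smul_eq_mul,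
        mul_one] at h00 h11
      rw [Matrix.map_apply, Matrix.smul_apply, Matrix.one_apply_ne (by decide), smul_zero] at h01 h10
      ext i k
      fin_cases i <;> fin_cases k
      · simp
      · simpa using (map_eq_zero_iff _ hinj).1 h01
      · simpa using (map_eq_zero_iff _ hinj).1 h10
      · have : (r n : Matrix (Fin 2) (Fin 2) E) 1 1 = (r n : Matrix (Fin 2) (Fin 2) E) 0 0 :=
          hinj (h11.trans h00.symm)
        simpa using this⟩
  refine ⟨H, Subgroup.isOpen_mono hNH hNo, hH2, fun g hg h hh => ?_⟩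
  have h1 := hHc g hg h hh
  rw [← map_mul, ← map_mul] at h1
  have h2 : (r (g * h) : Matrix (Fin 2) (Fin 2) E).map (algebraMap E (AlgebraicClosure E)) =
      (r (h * g) : Matrix (Fin 2) (Fin 2) E).map (algebraMap E (AlgebraicClosure E)) :=
    congrArg Units.val h1
  rw [← map_mul, ← map_mul]
  apply Units.ext
  ext i k
  apply hinj
  have h3 := congrFun (congrFun h2 i) k
  rwa [Matrix.map_apply, Matrix.map_apply] at h3

end Vale.Agent.P022.H916
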