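import Mathlib

/-!
P022: small images (definitions). `G_ℚ` is the group of the automorphisms of an algebraic closure
`ℚ̄` of `ℚ`, with the Krull topology.
-/

open Matrix

noncomputable section

namespace Vale.Agent.P022.St

variable {E : Type} [Field E]
  (r : (AlgebraicClosure ℚ ≃ₐ[ℚ] AlgebraicClosure ℚ) →* GL (Fin 2) E)

/-- the restriction of `r` to some open subgroup (the absolute Galois group of some number field)
has a stable line over the algebraic closure of `E` -/
def PotRed : Prop :=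
  ∃ U : Subgroup (AlgebraicClosure ℚ ≃ₐ[ℚ] AlgebraicClosure ℚ),
    IsOpen (U : Set (AlgebraicClosure ℚ ≃ₐ[ℚ] AlgebraicClosure ℚ)) ∧
      ∃ w : Fin 2 → AlgebraicClosure E, w ≠ 0 ∧ ∀ g ∈ U, ∃ a : AlgebraicClosure E,
        ((r g : Matrix (Fin 2) (Fin 2) E).map (algebraMap E (AlgebraicClosure E))) *ᵥ w = a • w

/-- no open subgroup acts by scalars: the projective image of `r` is infinite (`r` continuous) -/
def InfProj : Prop :=
  ∀ U : Subgroup (AlgebraicClosure ℚ ≃ₐ[ℚ] AlgebraicClosure ℚ),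
    IsOpen (U : Set (AlgebraicClosure ℚ ≃ₐ[ℚ] AlgebraicClosure ℚ)) →
      ∃ g ∈ U, ∀ a : E, (r g : Matrix (Fin 2) (Fin 2) E) ≠ a • 1

end Vale.Agent.P022.St
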