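import Vale.Agent.P022.H916.Gal

/-!
# Frobenius elements and quadratic fields (helper916)
-/

namespace Vale.Agent.P022.H916

open NumberField

/-- an integer in a prime above `ℓ` is divisible by `ℓ` -/
theorem dvd_of_mem {ℓ : ℕ} (hℓ : ℓ.Prime) {Q : Ideal Zbar} (hQ : Q.IsPrime) (h : (ℓ : Zbar) ∈ Q)
    {n : ℤ} (hn : (n : Zbar) ∈ Q) : (ℓ : ℤ) ∣ n := by
  by_contra hd
  have hp : Prime (ℓ : ℤ) := Nat.prime_iff_prime_int.mp hℓ
  have hc : IsCoprime (ℓ : ℤ) n := (Prime.coprime_iff_not_dvd hp).mpr hd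
  obtain ⟨u, v, huv⟩ := hc
  apply hQ.ne_top
  rw [Ideal.eq_top_iff_one]
  have : (1 : Zbar) = (u : Zbar) * (ℓ : Zbar) + (v : Zbar) * (n : Zbar) := by
    have := congrArg (fun z : ℤ => (z : Zbar)) huv
    push_cast at this
    exact this.symm
  rw [this]
  exact add_mem (Ideal.mul_mem_left _ _ h) (Ideal.mul_mem_left _ _ hn)

variable {K : IntermediateField ℚ (AlgebraicClosure ℚ)}

/-- A Galois element which is trivial on `O_K` modulo a prime above `ℓ` but not on `K` forces `ℓ` to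
divide the discriminant (`K` quadratic). -/
theorem discr_dvd [NumberField K] (h2 : Module.finrank ℚ K = 2) {ℓ : ℕ} (hℓ : ℓ.Prime)
    {Q : Ideal Zbar} (hQ : Q.IsPrime) (h : (ℓ : Zbar) ∈ Q) {σ : GQ} (hσ : σ ∉ K.fixingSubgroup)
    (hx : ∀ x : 𝓞 K, σ • algebraMap (𝓞 K) Zbar x - algebraMap (𝓞 K) Zbar x ∈ Q) :
    (ℓ : ℤ) ∣ discr K := by
  classical
  set f : Fin 2 → (K →ₐ[ℚ] AlgebraicClosure ℚ) := ![K.val, (σ : AlgebraicClosure ℚ →ₐ[ℚ]
    AlgebraicClosure ℚ).comp K.val] with hf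
  have hinj : Function.Injective f := by
    have hne : K.val ≠ (σ : AlgebraicClosure ℚ →ₐ[ℚ] AlgebraicClosure ℚ).comp K.val := by
      intro he
      apply hσ
      rw [IntermediateField.mem_fixingSubgroup_iff]
      intro x hxK
      have := DFunLike.congr_fun he ⟨x, hxK⟩
      exact this.symm
    intro i j hij
    fin_cases i <;> fin_cases j
    · rfl
    · exact (hne hij).elim
    · exact (hne hij.symm).elim
    · rfl
  have hcard : Fintype.card (Fin 2) = Fintype.card (K →ₐ[ℚ] AlgebraicClosure ℚ) := by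
    rw [AlgHom.card, h2, Fintype.card_fin]
  have hbij : Function.Bijective f := (Fintype.bijective_iff_injective_and_card f).2 ⟨hinj, hcard⟩
  have hι : Fintype.card (Module.Free.ChooseBasisIndex ℤ (𝓞 K)) = 2 := by
    rw [← Module.finrank_eq_card_basis (integralBasis K), h2]
  let e₀ : Module.Free.ChooseBasisIndex ℤ (𝓞 K) ≃ Fin 2 := Fintype.equivFinOfCardEq hι
  let B := (integralBasis K).reindex e₀
  have hdisc : (discr K : ℚ) = Algebra.discr ℚ B := by
    rw [coe_discr]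
    simp only [B]
    rw [Module.Basis.coe_reindex, Algebra.discr_reindex]
  have hB : ∀ i, ∃ w : 𝓞 K, B i = algebraMap (𝓞 K) K w := fun i =>
    ⟨RingOfIntegers.basis K (e₀.symm i), by simp [B]⟩
  choose w hw using hB
  have key := Algebra.discr_eq_det_embeddingsMatrixReindex_pow_two (E := AlgebraicClosure ℚ)
    (K := ℚ) (L := K) B (Equiv.ofBijective f hbij)
  rw [← hdisc, Matrix.det_fin_two] at key
  simp only [Algebra.embeddingsMatrixReindex, Matrix.reindex_apply, Matrix.submatrix_apply,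
    Algebra.embeddingsMatrix_apply, Equiv.symm_symm, Equiv.refl_symm, Equiv.coe_refl, id,
    Equiv.ofBijective_apply, hw] at key
  have key2 : ((discr K : ℤ) : Zbar) =
      (algebraMap (𝓞 K) Zbar (w 0) * σ • algebraMap (𝓞 K) Zbar (w 1) -
        σ • algebraMap (𝓞 K) Zbar (w 0) * algebraMap (𝓞 K) Zbar (w 1)) ^ 2 := by
    apply RingOfIntegers.ext
    have h1 : (((discr K : ℤ) : Zbar) : AlgebraicClosure ℚ) =
      algebraMap ℚ (AlgebraicClosure ℚ) (discr K : ℚ) := by simp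
    rw [h1, key]
    rfl
  apply dvd_of_mem hℓ hQ h
  rw [key2]
  apply Ideal.pow_mem_of_mem _ _ _ (by norm_num)
  have : algebraMap (𝓞 K) Zbar (w 0) * σ • algebraMap (𝓞 K) Zbar (w 1) -
        σ • algebraMap (𝓞 K) Zbar (w 0) * algebraMap (𝓞 K) Zbar (w 1) =
      algebraMap (𝓞 K) Zbar (w 0) * (σ • algebraMap (𝓞 K) Zbar (w 1) - algebraMap (𝓞 K) Zbar (w 1))
      - (σ • algebraMap (𝓞 K) Zbar (w 0) - algebraMap (𝓞 K) Zbar (w 0)) *
        algebraMap (𝓞 K) Zbar (w 1) := by ring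
  rw [this]
  exact sub_mem (Ideal.mul_mem_left _ _ (hx _)) (Ideal.mul_mem_right _ _ (hx _))

end Vale.Agent.P022.H916
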